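import Vale.Agent.P168.Tree.Location

/-! A new replica attaches itself just below a given one. -/

open MeasureTheory ProbabilityTheory Filter
open scoped BigOperators NNReal ENNReal

noncomputable section

namespace Vale.Agent.P168.Tree

variable {ν : Measure Arr}

/-- The last column has its largest entry, lying in `I`, in the first row. -/
def attachSet (I : Set ℝ) (m : ℕ) : Set (Mat (m + 2)) :=
  {T | T (Fin.castSucc 0) (Fin.last (m + 1)) ∈ I ∧
    ∀ l : Fin (m + 1), T l.castSucc (Fin.last (m + 1)) ≤ T (Fin.castSucc 0) (Fin.last (m + 1))}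

lemma measurableSet_attachSet {I : Set ℝ} (hI : MeasurableSet I) (m : ℕ) :
    MeasurableSet (attachSet I m) := by
  have h : ∀ l : Fin (m + 1), Measurable fun T : Mat (m + 2) => T l.castSucc (Fin.last (m + 1)) :=
    fun l => (measurable_pi_apply _).comp (measurable_pi_apply _)
  refine (hI.preimage (h 0)).inter ?_
  show MeasurableSet {T : Mat (m + 2) | ∀ l : Fin (m + 1),
    T l.castSucc (Fin.last (m + 1)) ≤ T (Fin.castSucc 0) (Fin.last (m + 1))}
  rw [Set.ofPred_forall]
  exact MeasurableSet.iInter fun l => measurableSet_le (h l) (h 0)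

lemma rowFun_attach (I : Set ℝ) {m : ℕ} (ρ : ℝ) (T : Mat (m + 1)) (x : Fin (m + 1) → ℝ) :
    rowFun ρ ((attachSet I m).indicator 1) T x =
      {x : Fin (m + 1) → ℝ | x 0 ∈ I ∧ ∀ l, x l ≤ x 0}.indicator 1 x := by
  have h : snocMat ρ T x ∈ attachSet I m ↔
      x ∈ {x : Fin (m + 1) → ℝ | x 0 ∈ I ∧ ∀ l, x l ≤ x 0} := by
    simp only [attachSet, Set.mem_ofPred_eq, snocMat, Fin.lastCases_last, Fin.lastCases_castSucc]
  by_cases hx : x ∈ {x : Fin (m + 1) → ℝ | x 0 ∈ I ∧ ∀ l, x l ≤ x 0}
  · rw [rowFun, Set.indicator_of_mem hx, Set.indicator_of_mem (h.2 hx)]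
    rfl
  · rw [rowFun, Set.indicator_of_notMem hx, Set.indicator_of_notMem (fun h' => hx (h.1 h'))]

lemma part_attach_zero {m : ℕ} {I : Set ℝ} {ρ : ℝ} {T : Mat (m + 1)}
    {g : Mat (m + 1) → (Fin (m + 1) → ℝ) → ℝ}
    (hval : ∀ x, g T x = {x : Fin (m + 1) → ℝ | x 0 ∈ I ∧ ∀ l, x l ≤ x 0}.indicator 1 x)
    (hdiag : ∀ a, T a a = ρ) {v : ℝ} (hv : v ≤ ρ) : part g T 0 v = I.indicator 1 v := by
  have he : ¬(Finset.Iio (0 : Fin (m + 1))).Nonempty := fun ⟨k, hk⟩ =>
    absurd (Finset.mem_Iio.1 hk) (Fin.not_lt_zero k)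
  rw [part, dif_neg he, hval]
  have hx : ray T 0 v 0 = v := by simp [ray, hdiag, hv]
  have hall : ∀ l, ray T 0 v l ≤ v := fun l => min_le_left _ _
  by_cases hvI : v ∈ I <;> simp [hvI, hall, hx]

lemma part_attach_other {m : ℕ} {I : Set ℝ} {ρ : ℝ} {T : Mat (m + 1)}
    {g : Mat (m + 1) → (Fin (m + 1) → ℝ) → ℝ}
    (hval : ∀ x, g T x = {x : Fin (m + 1) → ℝ | x 0 ∈ I ∧ ∀ l, x l ≤ x 0}.indicator 1 x)
    (hdiag : ∀ a, T a a = ρ) {l : Fin (m + 1)} (hl : l ≠ 0) {v : ℝ} (hv : v ≤ ρ) :
    part g T l ρ ≤ part g T l v := by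
  have hne : (Finset.Iio l).Nonempty := ⟨0, Finset.mem_Iio.2 (Fin.pos_iff_ne_zero.2 hl)⟩
  set h := (Finset.Iio l).sup' hne (T l)
  have h0l : T l 0 ≤ h := Finset.le_sup' (T l) (Finset.mem_Iio.2 (Fin.pos_iff_ne_zero.2 hl))
  have hzero : ∀ w, h < w → w ≤ ρ → g T (ray T l w) = 0 := by
    intro w hw hwρ
    rw [hval, Set.indicator_of_notMem]
    rintro ⟨-, h2⟩
    have := h2 l
    simp only [ray, hdiag, min_eq_left hwρ, min_eq_right (h0l.trans hw.le)] at this
    linarith
  have hnn : ∀ x, 0 ≤ g T x := fun x => by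
    rw [hval]
    exact Set.indicator_nonneg (fun _ _ => zero_le_one) _
  simp only [part, dif_pos hne]
  rcases le_or_gt v h with hvh | hvh
  · rw [min_eq_left hvh, sub_self]
    rcases le_or_gt ρ h with hρh | hρh
    · rw [min_eq_left hρh, sub_self]
    · rw [hzero ρ hρh le_rfl]
      linarith [hnn (ray T l (min ρ h))]
  · rw [min_eq_right hvh.le, min_eq_right (hvh.le.trans hv), hzero v hvh hv,
      hzero ρ (hvh.trans_le hv) le_rfl]

lemma lamFun_attach_le {I : Set ℝ} (hI : MeasurableSet I) {m : ℕ} {ρ : ℝ} {μ : Measure ℝ}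
    [IsProbabilityMeasure μ] (hμ : ∀ᵐ v ∂μ, v ≤ ρ) {T : Mat (m + 1)}
    (hdiag : ∀ a, T a a = ρ) :
    lamFun ρ μ ((attachSet I m).indicator 1) T ≤ I.indicator 1 ρ - μ.real I := by
  set G : Mat (m + 2) → ℝ := (attachSet I m).indicator 1
  have hG : Measurable G := measurable_one.indicator (measurableSet_attachSet hI m)
  set g := rowFun ρ G
  have hval : ∀ x, g T x = {x : Fin (m + 1) → ℝ | x 0 ∈ I ∧ ∀ l, x l ≤ x 0}.indicator 1 x :=
    rowFun_attach I ρ T
  have hint : ∀ l, Integrable (fun v => part g T l v) μ := by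
    intro l
    have hgb : ∀ T' x, |g T' x| ≤ 1 := fun T' x => by
      simp only [g, rowFun, G]
      exact abs_indicator_one_le _ _
    have h1 : Measurable fun z : Mat (m + 1) × ℝ => part g z.1 l z.2 :=
      measurable_part (measurable_rowFun ρ hG) l
    have h2 : Measurable fun v : ℝ => (T, v) :=
      (measurable_const : Measurable fun _ : ℝ => T).prodMk measurable_id
    have hm : Measurable fun v : ℝ => part g T l v := by
      have h3 := h1.comp h2
      simp only [Function.comp_def] at h3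
      exact h3
    exact integrable_of_abs_le hm fun v => abs_part_le hgb T l v
  calc lamFun ρ μ G T
      = (part g T 0 ρ - ∫ v, part g T 0 v ∂μ) +
          ∑ l ∈ Finset.univ.erase 0, (part g T l ρ - ∫ v, part g T l v ∂μ) :=
        (Finset.add_sum_erase _ _ (Finset.mem_univ _)).symm
    _ ≤ (part g T 0 ρ - ∫ v, part g T 0 v ∂μ) + 0 := by
        refine add_le_add le_rfl (Finset.sum_nonpos fun l hl => sub_nonpos.2 ?_)
        calc part g T l ρ = ∫ _v, part g T l ρ ∂μ := by simp
          _ ≤ _ := integral_mono_ae (integrable_const _) (hint l) (by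
            filter_upwards [hμ] with v hv
            exact part_attach_other hval hdiag (Finset.mem_erase.1 hl).1 hv)
    _ = _ := by
        rw [add_zero, part_attach_zero hval hdiag (le_refl ρ), integral_congr_ae (show (fun v => part g T 0 v) =ᵐ[μ]
          I.indicator 1 from by filter_upwards [hμ] with v hv using part_attach_zero hval hdiag hv),
          integral_indicator_one hI]

lemma attach (hν : IsGGArray ν) (n p : ℕ) (hp : p < n) (A : Set (RepData n)) (I : Set ℝ)
    (hA : MeasurableSet A) (hI : MeasurableSet I) :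
    (overlapLaw ν).real I * ν.real {ω | repData n ω ∈ A} ≤
      (n : ℝ) * ν.real {ω | repData n ω ∈ A ∧ rbar p n ω ∈ I ∧
        ∀ l < n, rbar l n ω ≤ rbar p n ω} := by
  have := hν.prob
  have := isProbability_overlapLaw hν
  obtain ⟨m, rfl⟩ : ∃ m, n = m + 1 := ⟨n - 1, by omega⟩
  set ρ := rhoVal hν
  set μ := overlapLaw ν
  set u : Fin (m + 1) → ℕ := fun i => Equiv.swap 0 p i
  have hu : ∀ i, u i < m + 1 := fun i => by
    have := i.isLt
    simp only [u, Equiv.swap_apply_def]
    split_ifs <;> omega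
  have hu0 : u 0 = p := by simp [u]
  have husurj : ∀ l < m + 1, ∃ i, u i = l := fun l hl =>
    ⟨⟨Equiv.swap 0 p l, by simp only [Equiv.swap_apply_def]; split_ifs <;> omega⟩, by simp [u]⟩
  set G : Mat (m + 2) → ℝ := (attachSet I m).indicator 1
  have hG : Measurable G := measurable_one.indicator (measurableSet_attachSet hI m)
  set F : RepData (m + 1) → ℝ := A.indicator 1
  have hF : Measurable F := measurable_one.indicator hA
  have hval : ∀ q ω, tmat (Fin.snoc u q) ω ∈ attachSet I m ↔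
      rbar p q ω ∈ I ∧ ∀ l < m + 1, rbar l q ω ≤ rbar p q ω := by
    intro q ω
    simp only [attachSet, Set.mem_ofPred_eq, tmat, Fin.snoc_castSucc, Fin.snoc_last, hu0]
    refine and_congr_right fun _ => ⟨fun h l hl => ?_, fun h i => h _ (hu i)⟩
    obtain ⟨i, rfl⟩ := husurj l hl
    exact h i
  set c : ℝ := I.indicator 1 ρ
  have hkey := location_eq hν hG (abs_indicator_one_le _) hu hF (abs_indicator_one_le _)
  have hset : MeasurableSet {ω | repData (m + 1) ω ∈ A} := hA.preimage (measurable_repData _)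
  have hFint : ∫ ω, F (repData (m + 1) ω) ∂ν = ν.real {ω | repData (m + 1) ω ∈ A} := by
    rw [← integral_indicator_one hset]
    rfl
  have hFnn : ∀ ω, 0 ≤ F (repData (m + 1) ω) := fun ω => by
    by_cases h : repData (m + 1) ω ∈ A <;> simp [F, h]
  have hGnn : ∀ T, 0 ≤ G T := fun T => by by_cases h : T ∈ attachSet I m <;> simp [G, h]
  have hmT : ∀ q, Measurable fun ω : Arr => G (tmat (Fin.snoc u q) ω) := fun q =>
    hG.comp (measurable_tmat _)
  have hsame : ∫ ω, F (repData (m + 1) ω) * G (tmat (Fin.snoc u p) ω) ∂ν =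
      c * ν.real {ω | repData (m + 1) ω ∈ A} := by
    rw [← hFint, ← integral_const_mul]
    refine integral_congr_ae ?_
    filter_upwards [ae_good hν] with ω h
    rw [mul_comm c]
    congr 1
    have : tmat (Fin.snoc u p) ω ∈ attachSet I m ↔ ρ ∈ I := by
      rw [hval, h.diag]
      exact and_iff_left fun l _ => h.le l p
    by_cases hI' : ρ ∈ I <;> simp [G, c, this, hI']
  have hsum : c * ν.real {ω | repData (m + 1) ω ∈ A} ≤
      ∑ q ∈ Finset.range (m + 1), ∫ ω, F (repData (m + 1) ω) * G (tmat (Fin.snoc u q) ω) ∂ν := by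
    rw [← hsame]
    exact Finset.single_le_sum (f := fun q => ∫ ω, F (repData (m + 1) ω) *
      G (tmat (Fin.snoc u q) ω) ∂ν)
      (fun q _ => integral_nonneg fun ω => mul_nonneg (hFnn ω) (hGnn _)) (Finset.mem_range.2 hp)
  have hlam : ∫ ω, F (repData (m + 1) ω) * lamFun ρ μ G (tmat u ω) ∂ν ≤
      (c - μ.real I) * ν.real {ω | repData (m + 1) ω ∈ A} := by
    rw [← hFint, ← integral_const_mul]
    refine integral_mono_ae ?_ ((integrable_of_abs_le (hF.comp (measurable_repData _))
      fun ω => abs_indicator_one_le _ _).const_mul _) ?_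
    · refine integrable_of_abs_le ((hF.comp (measurable_repData _)).mul
        ((measurable_lamFun ρ μ hG).comp (measurable_tmat u)))
        (C := 1 * (4 * ((m + 1 : ℕ) : ℝ))) fun ω => ?_
      show |F (repData (m + 1) ω) * lamFun ρ μ G (tmat u ω)| ≤ _
      rw [abs_mul]
      exact mul_le_mul (abs_indicator_one_le _ _) (abs_lamFun_le ρ μ (abs_indicator_one_le _) _)
        (abs_nonneg _) zero_le_one
    · filter_upwards [ae_good hν] with ω h
      rw [mul_comm (c - μ.real I)]
      exact mul_le_mul_of_nonneg_left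
        (lamFun_attach_le hI (overlapLaw_le hν) fun a => h.diag _) (hFnn ω)
  have htarget : ∫ ω, F (repData (m + 1) ω) * G (tmat (Fin.snoc u (m + 1)) ω) ∂ν =
      ν.real {ω | repData (m + 1) ω ∈ A ∧ rbar p (m + 1) ω ∈ I ∧
        ∀ l < m + 1, rbar l (m + 1) ω ≤ rbar p (m + 1) ω} := by
    have hm : MeasurableSet {ω | repData (m + 1) ω ∈ A ∧ rbar p (m + 1) ω ∈ I ∧
        ∀ l < m + 1, rbar l (m + 1) ω ≤ rbar p (m + 1) ω} := by
      simp only [← hval]
      exact hset.inter ((measurableSet_attachSet hI m).preimage (measurable_tmat _))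
    rw [← integral_indicator_one hm]
    refine integral_congr_ae (Eventually.of_forall fun ω => ?_)
    have e : ω ∈ {ω | repData (m + 1) ω ∈ A ∧ rbar p (m + 1) ω ∈ I ∧
        ∀ l < m + 1, rbar l (m + 1) ω ≤ rbar p (m + 1) ω} ↔
        repData (m + 1) ω ∈ A ∧ tmat (Fin.snoc u (m + 1)) ω ∈ attachSet I m :=
      and_congr_right' (hval (m + 1) ω).symm
    classical
    simp only [F, G, Set.indicator_apply, e, Pi.one_apply, ite_and]
    split_ifs <;> simp
  rw [← htarget, hkey]
  linarith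

end Vale.Agent.P168.Tree
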