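import Vale.Agent.P168.Tree.Base

/-! The duplication property of GG arrays. -/

open MeasureTheory ProbabilityTheory Filter
open scoped BigOperators NNReal ENNReal

noncomputable section

namespace Vale.Agent.P168.Tree

/-- Restriction of data to the first replicas. -/
def restrictData {n m : ℕ} (h : n ≤ m) (z : RepData m) : RepData n :=
  (fun l => z.1 (Fin.castLE h l), fun g a b => z.2 g (Fin.castLE h a) (Fin.castLE h b))

lemma restrictData_repData {n m : ℕ} (h : n ≤ m) (ω : Arr) :
    restrictData h (repData m ω) = repData n ω := rfl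

lemma measurable_restrictData {n m : ℕ} (h : n ≤ m) : Measurable (restrictData h) := by
  refine Measurable.prodMk ?_ ?_
  · exact measurable_pi_lambda _ fun l => (measurable_pi_apply _).comp measurable_fst
  · exact measurable_pi_lambda _ fun g => measurable_pi_lambda _ fun a =>
      measurable_pi_lambda _ fun b => (measurable_pi_apply _).comp ((measurable_pi_apply _).comp
        ((measurable_pi_apply g).comp measurable_snd))

lemma permRep_permRep (π σ : Equiv.Perm ℕ) (ω : Arr) :
    permRep π (permRep σ ω) = permRep (σ * π) ω := rfl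

lemma repData_permRep_congr {n : ℕ} {σ τ : Equiv.Perm ℕ} (h : ∀ l < n, σ l = τ l) (ω : Arr) :
    repData n (permRep σ ω) = repData n (permRep τ ω) := by
  simp only [repData, permRep, h _ (Fin.is_lt _)]

/-- The recursively defined probabilities of the duplication argument are unbounded after
multiplication by their index. -/
lemma exists_large {θ : ℝ} (hθ : 0 < θ) {n : ℕ} (hn : 1 ≤ n) {q : ℕ → ℝ} (h0 : 0 < q 0)
    (hrec : ∀ k : ℕ, ((n : ℝ) + k) * q (k + 1) = (θ + n + k - 1) * q k) (B : ℝ) :
    ∃ k : ℕ, B < ((n : ℝ) + k - 1) * q k := by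
  have hn' : (1 : ℝ) ≤ n := by exact_mod_cast hn
  have hpos : ∀ k, 0 < q k := by
    intro k
    induction k with
    | zero => exact h0
    | succ k ih =>
      have hk : (0 : ℝ) ≤ k := Nat.cast_nonneg k
      have : 0 < ((n : ℝ) + k) * q (k + 1) := by
        rw [hrec k]
        exact mul_pos (by linarith) ih
      exact pos_of_mul_pos_right this (by linarith)
  set b : ℕ → ℝ := fun k => ((n : ℝ) + k - 1) * q k with hb
  have hstep : ∀ k, b (k + 1) = b k + θ * q k := by
    intro k
    simp only [b]
    push_cast
    linear_combination hrec k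
  have hb0 : 0 ≤ b 0 := by
    simp only [b, Nat.cast_zero, add_zero]
    exact mul_nonneg (by linarith) h0.le
  have hb1 : 0 < b 1 := by
    rw [hstep 0]
    linarith [mul_pos hθ h0]
  have hmono : Monotone b := monotone_nat_of_le_succ fun k => by
    rw [hstep k]
    linarith [mul_pos hθ (hpos k)]
  have hlow : ∀ k : ℕ, b 1 / n / ((k : ℝ) + 1 + 1) ≤ q (k + 1) := by
    intro k
    have h1 : b 1 ≤ b (k + 1) := hmono (by omega)
    have hk : (0 : ℝ) ≤ k := Nat.cast_nonneg k
    rw [div_div, div_le_iff₀ (by positivity)]
    refine h1.trans ?_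
    simp only [b]
    push_cast
    rw [mul_comm (q (k + 1))]
    refine mul_le_mul_of_nonneg_right ?_ (hpos _).le
    nlinarith
  have hsum : ∀ k, b 1 + θ * (∑ j ∈ Finset.range k, b 1 / n / ((j : ℝ) + 1 + 1)) ≤ b (k + 1) := by
    intro k
    induction k with
    | zero => simp
    | succ k ih =>
      rw [Finset.sum_range_succ, hstep (k + 1), mul_add, ← add_assoc]
      exact add_le_add ih (mul_le_mul_of_nonneg_left (hlow k) hθ.le)
  by_contra hcon
  push Not at hcon
  have hdiv := Real.tendsto_sum_range_one_div_nat_succ_atTop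
  obtain ⟨k, hk⟩ := (hdiv.eventually_gt_atTop (1 + (B - b 1) / (θ * (b 1 / n)))).exists_forall_of_atTop
  have hk1 := hk (k + 1) (by omega)
  rw [Finset.sum_range_succ'] at hk1
  push_cast at hk1
  simp only [zero_add, div_one] at hk1
  have h2 := (hsum k).trans (hcon (k + 1))
  have hpos' : 0 < θ * (b 1 / n) := mul_pos hθ (div_pos hb1 (by linarith))
  have h3 : (B - b 1) / (θ * (b 1 / n)) < ∑ i ∈ Finset.range k, 1 / ((i : ℝ) + 1 + 1) := by linarith
  rw [div_lt_iff₀ hpos'] at h3
  have h4 : (∑ i ∈ Finset.range k, 1 / ((i : ℝ) + 1 + 1)) * (θ * (b 1 / n))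
      = θ * ∑ j ∈ Finset.range k, b 1 / n / ((j : ℝ) + 1 + 1) := by
    rw [Finset.sum_mul, Finset.mul_sum]
    refine Finset.sum_congr rfl fun i _ => ?_
    ring
  linarith

variable {ν : Measure Arr} {α : ℕ → ℝ}

/-- The event that the data lie in `A` and can be duplicated at `p`. -/
def dupSet (α : ℕ → ℝ) {n : ℕ} (A : Set (RepData n)) (p : ℕ) (c : ℝ) : Set Arr :=
  {ω | repData n ω ∈ A ∧ repData n (permRep (Equiv.swap p n) ω) ∈ A ∧ ov α p n ω < c}

lemma measurableSet_dupSet (hα : IsWeight α) {n : ℕ} {A : Set (RepData n)} (hA : MeasurableSet A)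
    (p : ℕ) (c : ℝ) : MeasurableSet (dupSet α A p c) := by
  refine (hA.preimage (measurable_repData n)).inter ?_
  exact (hA.preimage ((measurable_repData n).comp (measurable_permRep _))).inter
    (measurableSet_lt (measurable_ov hα p n) measurable_const)

/-- Duplication: an event on `n` replicas in which the row of `p` is below `c` can be realised
simultaneously with a copy of `p`. -/
lemma dup_pos (hν : IsGGArray ν) (hα : IsWeight α) {n p : ℕ} (hp : p < n) {c : ℝ}
    (hc : 0 < (ovLaw ν α).real (Set.Iio c)) {A : Set (RepData n)} (hA : MeasurableSet A)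
    (hrow : ∀ᵐ ω ∂ν, repData n ω ∈ A → ∀ l < n, l ≠ p → ov α p l ω < c)
    (hpos : 0 < ν.real (repData n ⁻¹' A)) :
    0 < ν.real (dupSet α A p c) := by
  classical
  have := hν.prob
  have hn1 : 1 ≤ n := by omega
  by_contra hzero
  have hD : ν (dupSet α A p c) = 0 :=
    (measureReal_eq_zero_iff).1 (le_antisymm (not_lt.1 hzero) measureReal_nonneg)
  set Ak : ∀ k, Set (RepData (n + k)) := fun k =>
    {z | restrictData (Nat.le_add_right n k) z ∈ A ∧
      ∀ j : Fin k, ovD α ⟨p, by omega⟩ ⟨n + j, by omega⟩ z < c}
  have hAk : ∀ k, MeasurableSet (Ak k) := fun k => by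
    refine (hA.preimage (measurable_restrictData _)).inter ?_
    show MeasurableSet {z | ∀ j : Fin k, ovD α (⟨p, by omega⟩ : Fin (n + k)) ⟨n + j, by omega⟩ z < c}
    simp only [Set.ofPred_forall]
    exact MeasurableSet.iInter fun j => measurableSet_lt (measurable_ovD hα _ _) measurable_const
  set Bk : ℕ → Set Arr := fun k => {ω | repData n ω ∈ A ∧ ∀ j < k, ov α p (n + j) ω < c}
  have hBAk : ∀ k ω, ω ∈ Bk k ↔ repData (n + k) ω ∈ Ak k := by
    intro k ω
    simp only [Bk, Ak, Set.mem_ofPred_eq, restrictData_repData, ovD_repData]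
    exact and_congr_right fun _ => ⟨fun h j => h j j.isLt, fun h j hj => h ⟨j, hj⟩⟩
  have hBm : ∀ k, MeasurableSet (Bk k) := fun k => by
    rw [show Bk k = repData (n + k) ⁻¹' Ak k from Set.ext fun ω => hBAk k ω]
    exact (hAk k).preimage (measurable_repData _)
  have hq0 : 0 < ν.real (Bk 0) := by
    simpa [Bk, Set.preimage] using hpos
  have hrec : ∀ k : ℕ, ((n : ℝ) + k) * ν.real (Bk (k + 1)) =
      ((ovLaw ν α).real (Set.Iio c) + n + k - 1) * ν.real (Bk k) := by
    intro k
    have := isProbability_ovLaw hν hα
    have key := gg_joint hν hα (n := n + k) (p := p) (by omega)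
      (Φ := fun w => (Ak k).indicator 1 w.1 * (Set.Iio c).indicator 1 w.2)
      (((measurable_one.indicator (hAk k)).comp measurable_fst).mul
        ((measurable_one.indicator measurableSet_Iio).comp measurable_snd)) (C := 1)
      (fun w => abs_indicator_mul_le _ _ _ _)
    simp only at key
    have e1 : ∫ ω, (Ak k).indicator (1 : RepData (n + k) → ℝ) (repData (n + k) ω) *
        (Set.Iio c).indicator 1 (ov α p (n + k) ω) ∂ν = ν.real (Bk (k + 1)) := by
      rw [← integral_indicator_one (hBm (k + 1))]
      refine integral_congr_ae (Eventually.of_forall fun ω => ?_)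
      have : ω ∈ Bk (k + 1) ↔ ω ∈ Bk k ∧ ov α p (n + k) ω < c := by
        simp only [Bk, Set.mem_ofPred_eq, Nat.forall_lt_succ_right]
        tauto
      by_cases h1 : ω ∈ Bk k <;> by_cases h2 : ov α p (n + k) ω < c <;>
        simp_all [Set.indicator]
    have e2 : ∀ l ∈ (Finset.range (n + k)).erase p,
        ∫ ω, (Ak k).indicator (1 : RepData (n + k) → ℝ) (repData (n + k) ω) *
          (Set.Iio c).indicator 1 (ov α p l ω) ∂ν = ν.real (Bk k) := by
      intro l hl
      rw [← integral_indicator_one (hBm k)]
      refine integral_congr_ae ?_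
      filter_upwards [hrow] with ω hω
      by_cases h1 : ω ∈ Bk k
      · have h2 : ov α p l ω < c := by
          simp only [Finset.mem_erase, Finset.mem_range] at hl
          rcases lt_or_ge l n with h | h
          · exact hω h1.1 l h hl.1
          · have := h1.2 (l - n) (by omega)
            rwa [Nat.add_sub_cancel' h] at this
        simp_all [Set.indicator]
      · simp_all [Set.indicator]
    have e3 : ∫ ω, (∫ x, (Ak k).indicator (1 : RepData (n + k) → ℝ) (repData (n + k) ω) *
        (Set.Iio c).indicator 1 x ∂ovLaw ν α) ∂ν =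
          ν.real (Bk k) * (ovLaw ν α).real (Set.Iio c) := by
      simp only [integral_const_mul, integral_indicator_one measurableSet_Iio]
      rw [integral_mul_const, ← integral_indicator_one (hBm k)]
      congr 1
      refine integral_congr_ae (Eventually.of_forall fun ω => ?_)
      by_cases h1 : ω ∈ Bk k <;> simp_all [Set.indicator]
    rw [e1, e3, Finset.sum_congr rfl e2, Finset.sum_const,
      Finset.card_erase_of_mem (Finset.mem_range.2 (by omega)), Finset.card_range, nsmul_eq_mul,
      Nat.cast_sub (by omega)] at key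
    push_cast at key
    linarith
  obtain ⟨J, hJ⟩ := exists_large hc hn1 (q := fun k => ν.real (Bk k)) hq0 hrec n
  set t : ℕ → ℕ := fun i => if i < J then n + i else p with ht
  set C : ℕ → Set Arr := fun i => permRep (Equiv.swap p (t i)) ⁻¹' Bk J
  have hdisj : Set.Pairwise (Finset.range (J + 1) : Set ℕ) (Function.onFun (AEDisjoint ν) C) := by
    have key : ∀ i j, i ≤ J → j < J → i ≠ j → ν (C i ∩ C j) = 0 := by
      intro i j hi hj hij
      set a := t i with ha
      have hb : t j = n + j := if_pos hj
      have hab : a ≠ n + j ∧ (a = p ∨ n ≤ a) := by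
        simp only [ha, ht]
        split_ifs <;> omega
      set σ := Equiv.swap p a * Equiv.swap n (n + j)
      refine measure_mono_null (t := permRep σ ⁻¹' dupSet α A p c) ?_ ?_
      · rintro ω ⟨hωi, hωj⟩
        simp only [C, Set.mem_preimage, Bk, Set.mem_ofPred_eq, hb, ← ha] at hωi hωj
        refine ⟨?_, ?_, ?_⟩
        · rw [repData_permRep_congr (τ := Equiv.swap p a) ?_]
          · exact hωi.1
          · intro l hl
            simp only [σ, Equiv.Perm.mul_apply]
            rw [Equiv.swap_apply_of_ne_of_ne (by omega : l ≠ n) (by omega)]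
        · rw [permRep_permRep, repData_permRep_congr (τ := Equiv.swap p (n + j)) ?_]
          · exact hωj.1
          · intro l hl
            simp only [σ, Equiv.Perm.mul_apply, Equiv.swap_apply_def]
            split_ifs <;> omega
        · have h3 := hωi.2 j hj
          rw [ov_permRep, Equiv.swap_apply_left,
            Equiv.swap_apply_of_ne_of_ne (by omega : n + j ≠ p) (Ne.symm hab.1)] at h3
          rw [ov_permRep]
          have e1 : σ p = a := by
            simp only [σ, Equiv.Perm.mul_apply,
              Equiv.swap_apply_of_ne_of_ne (by omega : p ≠ n) (by omega : p ≠ n + j),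
              Equiv.swap_apply_left]
          have e2 : σ n = n + j := by
            simp only [σ, Equiv.Perm.mul_apply, Equiv.swap_apply_left]
            exact Equiv.swap_apply_of_ne_of_ne (by omega) (Ne.symm hab.1)
          rw [e1, e2]
          exact h3
      · rw [← Measure.map_apply (measurable_permRep σ) (measurableSet_dupSet hα hA p c),
          hν.exch_rep σ]
        exact hD
    intro i hi j hj hij
    simp only [Finset.coe_range, Set.mem_Iio] at hi hj
    rcases lt_or_ge j J with h | h
    · exact key i j (by omega) h hij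
    · show ν (C i ∩ C j) = 0
      rw [Set.inter_comm]
      exact key j i (by omega) (by omega) (Ne.symm hij)
  have hsum : ν.real (⋃ i ∈ Finset.range (J + 1), C i) = ((J : ℝ) + 1) * ν.real (Bk J) := by
    rw [measureReal_def, measure_biUnion_finset₀ hdisj
      (fun i _ => ((hBm J).preimage (measurable_permRep _)).nullMeasurableSet),
      ENNReal.toReal_sum (fun i _ => measure_ne_top _ _)]
    simp only [C, ← measureReal_def, real_permRep hν _ (hBm J), Finset.sum_const,
      Finset.card_range, nsmul_eq_mul, Nat.cast_add, Nat.cast_one]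
  have h1 : ((J : ℝ) + 1) * ν.real (Bk J) ≤ 1 := hsum ▸ measureReal_le_one
  have hn' : (1 : ℝ) ≤ n := by exact_mod_cast hn1
  have h5 : ((n : ℝ) + J - 1) * ν.real (Bk J) ≤ n * (((J : ℝ) + 1) * ν.real (Bk J)) := by
    rw [← mul_assoc]
    refine mul_le_mul_of_nonneg_right ?_ measureReal_nonneg
    nlinarith [J.cast_nonneg (α := ℝ)]
  nlinarith [mul_le_mul_of_nonneg_left h1 (by linarith : (0 : ℝ) ≤ n)]

end Vale.Agent.P168.Tree
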