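import Vale.Agent.P168.Tree.Location
import Vale.Agent.P168.Tree.Duplication

/-! Conditional consistency: further replicas see earlier data only through the tree. -/

open MeasureTheory ProbabilityTheory Filter
open scoped BigOperators NNReal ENNReal

noncomputable section

namespace Vale.Agent.P168.Tree

variable {ν : Measure Arr}

lemma snoc_idRep (s : ℕ) : Fin.snoc (idRep s) s = idRep (s + 1) := by
  funext i
  induction i using Fin.lastCases with
  | last => simp [idRep]
  | cast i => simp [idRep]

lemma tmat_snoc_comp {s : ℕ} (u : Fin s → ℕ) (i : Fin s) (ω : Arr) :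
    tmat (Fin.snoc u (u i)) ω =
      fun a b => tmat u ω ((Fin.snoc id i : Fin (s + 1) → Fin s) a)
        ((Fin.snoc id i : Fin (s + 1) → Fin s) b) := by
  have h := (Fin.comp_snoc u (id : Fin s → Fin s) i).symm
  rw [Function.comp_id] at h
  rw [h]
  rfl

lemma measurable_reindex {s t : ℕ} (e : Fin t → Fin s) :
    Measurable fun T : Mat s => (fun a b => T (e a) (e b) : Mat t) :=
  measurable_pi_lambda _ fun a => measurable_pi_lambda _ fun b =>
    (measurable_pi_apply (e b)).comp (measurable_pi_apply (e a))

lemma consistent (hν : IsGGArray ν) (n k : ℕ) (F : RepData n → ℝ) (f : Mat n → ℝ)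
    (hF : Measurable F) (hf : Measurable f) (hFb : ∀ z, |F z| ≤ 1) (hfb : ∀ T, |f T| ≤ 1)
    (H : ∀ g : Mat n → ℝ, Measurable g → (∀ T, |g T| ≤ 1) →
      ∫ ω, F (repData n ω) * g (tmat (idRep n) ω) ∂ν =
        ∫ ω, f (tmat (idRep n) ω) * g (tmat (idRep n) ω) ∂ν) :
    ∀ G : Mat (n + k) → ℝ, Measurable G → (∀ T, |G T| ≤ 1) →
      ∫ ω, F (repData n ω) * G (tmat (idRep (n + k)) ω) ∂ν =
        ∫ ω, f (tmat (idRep n) ω) * G (tmat (idRep (n + k)) ω) ∂ν := by
  have := hν.prob
  induction k with
  | zero => exact H
  | succ k ih =>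
    intro G hG hGb
    have ih' : ∀ (K : Mat (n + k) → ℝ) (C : ℝ), 0 < C → Measurable K → (∀ T, |K T| ≤ C) →
        ∫ ω, F (repData n ω) * K (tmat (idRep (n + k)) ω) ∂ν =
          ∫ ω, f (tmat (idRep n) ω) * K (tmat (idRep (n + k)) ω) ∂ν := by
      intro K C hC hK hKb
      have := ih (fun T => K T / C) (hK.div_const C) fun T => by
        rw [abs_div, abs_of_pos hC]
        exact (div_le_one hC).2 (hKb T)
      simpa [← mul_div_assoc, integral_div, div_left_inj' hC.ne'] using this
    rcases Nat.eq_zero_or_pos (n + k) with h0 | h0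
    · set c := G fun _ _ => rhoVal hν
      have e : ∀ᵐ ω ∂ν, G (tmat (idRep (n + (k + 1))) ω) = c := by
        filter_upwards [ae_good hν] with ω h
        refine congrArg G (funext fun a => funext fun b => ?_)
        have ha := a.isLt
        have hb := b.isLt
        rw [tmat, idRep, idRep, show (a : ℕ) = b by omega]
        exact h.diag _
      have := ih' (fun _ => c) 1 one_pos measurable_const fun _ => hGb _
      refine (integral_congr_ae ?_).trans (this.trans (integral_congr_ae ?_))
      · filter_upwards [e] with ω hω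
        rw [hω]
      · filter_upwards [e] with ω hω
        rw [hω]
    set s := n + k
    have hle : n ≤ s := Nat.le_add_right n k
    have key : ∀ (F₁ : RepData s → ℝ), Measurable F₁ → (∀ z, |F₁ z| ≤ 1) →
        (s : ℝ) * ∫ ω, F₁ (repData s ω) * G (tmat (idRep (s + 1)) ω) ∂ν =
          (∑ q ∈ Finset.range s, ∫ ω, F₁ (repData s ω) * G (tmat (Fin.snoc (idRep s) q) ω) ∂ν) -
            ∫ ω, F₁ (repData s ω) *
              lamFun (rhoVal hν) (overlapLaw ν) G (tmat (idRep s) ω) ∂ν := by
      intro F₁ hF₁ hF₁b
      have := location_eq hν hG hGb (u := idRep s) (fun i => i.isLt) hF₁ hF₁b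
      rw [← snoc_idRep s]
      exact this
    have e1 := key (fun z => F (restrictData hle z)) (hF.comp (measurable_restrictData hle))
      fun z => hFb _
    have e2 := key (fun z => f (tmatD (Fin.castLE hle) z))
      (hf.comp (measurable_tmatD _)) fun z => hfb _
    have := isProbability_overlapLaw hν
    refine mul_left_cancel₀ (Nat.cast_ne_zero.2 h0.ne' : (s : ℝ) ≠ 0) (e1.trans (Eq.trans ?_ e2.symm))
    congr 1
    · refine Finset.sum_congr rfl fun q hq => ?_
      set e : Fin (s + 1) → Fin s := Fin.snoc id ⟨q, Finset.mem_range.1 hq⟩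
      have he : ∀ ω, tmat (Fin.snoc (idRep s) q) ω =
          fun a b => tmat (idRep s) ω (e a) (e b) := fun ω =>
        tmat_snoc_comp (idRep s) ⟨q, Finset.mem_range.1 hq⟩ ω
      simp only [he]
      exact ih' (fun T => G fun a b => T (e a) (e b)) 1 one_pos
        (hG.comp (measurable_reindex e)) fun T => hGb _
    · exact ih' (lamFun (rhoVal hν) (overlapLaw ν) G) (4 * s + 1) (by positivity)
        (measurable_lamFun _ _ hG) fun T => (abs_lamFun_le _ _ hGb T).trans (le_add_of_nonneg_right zero_le_one)

end Vale.Agent.P168.Tree
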