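import Vale.Agent.P168.Tree.Consistent

/-! Domination of the law of fresh replicas below a pair. -/

open MeasureTheory ProbabilityTheory Filter
open scoped BigOperators NNReal ENNReal

noncomputable section

namespace Vale.Agent.P168.Tree

variable {ν : Measure Arr}

/-- The replicas `0, 1` followed by `j` replicas starting at `n`. -/
def uD (n j : ℕ) : Fin (2 + j) → ℕ := fun i => if i.val < 2 then i.val else n + (i.val - 2)

lemma uD_injective {n : ℕ} (hn : 2 ≤ n) (j : ℕ) : Function.Injective (uD n j) := by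
  intro a b h
  simp only [uD] at h
  apply Fin.ext
  split_ifs at h <;> omega

lemma uD_lt {n : ℕ} (hn : 2 ≤ n) (j : ℕ) (i : Fin (2 + j)) : uD n j i < n + j := by
  have := i.isLt
  simp only [uD]
  split_ifs <;> omega

lemma snoc_uD (n j : ℕ) : Fin.snoc (uD n j) (n + j) = uD n (j + 1) := by
  funext i
  refine Fin.lastCases ?_ (fun i => ?_) i
  · rw [Fin.snoc_last]
    show n + j = if 2 + j < 2 then 2 + j else n + (2 + j - 2)
    rw [if_neg (by omega), Nat.add_sub_cancel_left]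
  · simp [uD]

/-- A function of a random variable with nonnegative integral against every test function is
almost surely nonnegative. -/
lemma nonneg_of_test [IsFiniteMeasure ν] {X : Type*} [MeasurableSpace X] {T : Arr → X}
    (hT : Measurable T) {K : X → ℝ} (hK : Measurable K) {C : ℝ} (hKb : ∀ x, |K x| ≤ C)
    (h : ∀ ψ : X → ℝ, Measurable ψ → (∀ x, ψ x ∈ Set.Icc 0 1) →
      0 ≤ ∫ ω, ψ (T ω) * K (T ω) ∂ν) :
    ∀ᵐ ω ∂ν, 0 ≤ K (T ω) := by
  classical
  set S := {x | K x < 0}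
  have hS : MeasurableSet S := measurableSet_lt hK measurable_const
  have h0 := h (S.indicator 1) (measurable_one.indicator hS) fun x => by
    by_cases hx : x ∈ S <;> simp [hx]
  have hnn : 0 ≤ᵐ[ν] fun ω => -(S.indicator (1 : X → ℝ) (T ω) * K (T ω)) := by
    refine Eventually.of_forall fun ω => ?_
    by_cases hx : T ω ∈ S
    · simpa [hx] using le_of_lt (show K (T ω) < 0 from hx)
    · simp [hx]
  have hint : Integrable (fun ω => -(S.indicator (1 : X → ℝ) (T ω) * K (T ω))) ν := by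
    refine (integrable_of_abs_le (f := fun ω => S.indicator (1 : X → ℝ) (T ω) * K (T ω))
      (((measurable_one.indicator hS).comp hT).mul (hK.comp hT)) (C := 1 * C) fun ω => ?_).neg
    rw [abs_mul]
    exact mul_le_mul (abs_indicator_one_le _ _) (hKb _) (abs_nonneg _) zero_le_one
  have h2 := (integral_eq_zero_iff_of_nonneg_ae hnn hint).1
    (le_antisymm (by rw [integral_neg]; linarith) (integral_nonneg_of_ae hnn))
  filter_upwards [h2] with ω hω
  by_contra hneg
  simp [S, not_le.1 hneg] at hω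
  exact hneg hω.ge

/-- The conditional value of a function of one more replica. -/
def stepFun (hν : IsGGArray ν) {s : ℕ} (G : Mat (s + 1) → ℝ) (T : Mat s) : ℝ :=
  ((∑ i : Fin s, G fun a b => T ((Fin.snoc id i : Fin (s + 1) → Fin s) a)
      ((Fin.snoc id i : Fin (s + 1) → Fin s) b)) -
    lamFun (rhoVal hν) (overlapLaw ν) G T) / s

lemma measurable_stepFun (hν : IsGGArray ν) {s : ℕ} {G : Mat (s + 1) → ℝ} (hG : Measurable G) :
    Measurable (stepFun hν G) :=
  have := isProbability_overlapLaw hν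
  (((Finset.measurable_sum _ fun _ _ => hG.comp (measurable_reindex _)).sub
    (measurable_lamFun _ _ hG)).div_const _)

lemma abs_stepFun_le (hν : IsGGArray ν) {s : ℕ} {G : Mat (s + 1) → ℝ} (hGb : ∀ T, |G T| ≤ 1)
    (T : Mat s) : |stepFun hν G T| ≤ 5 := by
  have := isProbability_overlapLaw hν
  rcases Nat.eq_zero_or_pos s with rfl | hs
  · simp [stepFun]
  have hs' : (0 : ℝ) < s := by exact_mod_cast hs
  rw [stepFun, abs_div, Nat.abs_cast, div_le_iff₀ hs']
  refine (abs_sub _ _).trans ?_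
  have h1 : |∑ i : Fin s, G fun a b => T ((Fin.snoc id i : Fin (s + 1) → Fin s) a)
      ((Fin.snoc id i : Fin (s + 1) → Fin s) b)| ≤ ∑ _i : Fin s, (1 : ℝ) :=
    (Finset.abs_sum_le_sum_abs _ _).trans (Finset.sum_le_sum fun i _ => hGb _)
  have h2 := abs_lamFun_le (rhoVal hν) (overlapLaw ν) hGb T
  simp only [Finset.sum_const, Finset.card_univ, Fintype.card_fin, nsmul_eq_mul, mul_one] at h1
  linarith

/-- The sum over the duplicated replicas and the correction, as an integral. -/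
lemma integral_stepFun (hν : IsGGArray ν) {s : ℕ} (hs : 1 ≤ s) {G : Mat (s + 1) → ℝ}
    (hG : Measurable G) (hGb : ∀ T, |G T| ≤ 1) {N : ℕ} (u : Fin s → ℕ) {F : RepData N → ℝ}
    (hF : Measurable F) (hFb : ∀ z, |F z| ≤ 1) :
    (s : ℝ) * ∫ ω, F (repData N ω) * stepFun hν G (tmat u ω) ∂ν =
      (∑ i : Fin s, ∫ ω, F (repData N ω) * G (tmat (Fin.snoc u (u i)) ω) ∂ν) -
        ∫ ω, F (repData N ω) * lamFun (rhoVal hν) (overlapLaw ν) G (tmat u ω) ∂ν := by
  have := hν.prob
  have := isProbability_overlapLaw hν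
  have hs' : (s : ℝ) ≠ 0 := by exact_mod_cast (by omega : s ≠ 0)
  have hi : ∀ i : Fin s,
      Integrable (fun ω => F (repData N ω) * G (tmat (Fin.snoc u (u i)) ω)) ν := fun i =>
    integrable_of_abs_le ((hF.comp (measurable_repData N)).mul (hG.comp (measurable_tmat _)))
      (C := 1) fun ω => by
        show |F (repData N ω) * G (tmat (Fin.snoc u (u i)) ω)| ≤ 1
        rw [abs_mul]
        exact mul_le_one₀ (hFb _) (abs_nonneg _) (hGb _)
  have hl : Integrable
      (fun ω => F (repData N ω) * lamFun (rhoVal hν) (overlapLaw ν) G (tmat u ω)) ν :=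
    integrable_of_abs_le ((hF.comp (measurable_repData N)).mul
      ((measurable_lamFun _ _ hG).comp (measurable_tmat _))) (C := 1 * (4 * s)) fun ω => by
        show |F (repData N ω) * lamFun (rhoVal hν) (overlapLaw ν) G (tmat u ω)| ≤ _
        rw [abs_mul]
        exact mul_le_mul (hFb _) (abs_lamFun_le _ _ hGb _) (abs_nonneg _) zero_le_one
  rw [← integral_const_mul, ← integral_finsetSum _ fun i _ => hi i,
    ← integral_sub (integrable_finsetSum _ fun i _ => hi i) hl]
  refine integral_congr_ae (Eventually.of_forall fun ω => ?_)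
  simp only [tmat_snoc_comp, stepFun, ← Finset.mul_sum]
  field_simp

/-- The conditional value, truncated to `[0, 1]`. -/
def stepClip (hν : IsGGArray ν) {s : ℕ} (G : Mat (s + 1) → ℝ) (T : Mat s) : ℝ :=
  max 0 (min 1 (stepFun hν G T))

/-- The truncation does nothing on the law of fresh replicas. -/
lemma step_base (hν : IsGGArray ν) {s : ℕ} (hs : 1 ≤ s) {G : Mat (s + 1) → ℝ} (hG : Measurable G)
    (hG01 : ∀ T, G T ∈ Set.Icc 0 1) :
    (∀ F : Mat s → ℝ, Measurable F → (∀ T, |F T| ≤ 1) →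
        ∫ ω, F (tmat (idRep s) ω) * stepClip hν G (tmat (idRep s) ω) ∂ν =
          ∫ ω, F (tmat (idRep s) ω) * G (tmat (idRep (s + 1)) ω) ∂ν) ∧
      ∀ᵐ ω ∂ν, stepClip hν G (tmat (idRep s) ω) = stepFun hν G (tmat (idRep s) ω) := by
  have := hν.prob
  have hGb : ∀ T, |G T| ≤ 1 := fun T => abs_le.2 ⟨by linarith [(hG01 T).1], (hG01 T).2⟩
  set T₀ : Arr → Mat s := tmat (idRep s)
  have hT₀ : Measurable T₀ := measurable_tmat _
  have hid : ∀ F : Mat s → ℝ, Measurable F → (∀ T, |F T| ≤ 1) →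
      ∫ ω, F (T₀ ω) * stepFun hν G (T₀ ω) ∂ν =
        ∫ ω, F (T₀ ω) * G (tmat (idRep (s + 1)) ω) ∂ν := by
    intro F hF hFb
    have hm := hF.comp (measurable_tmatD (n := s) id)
    have h1 := integral_stepFun hν hs hG hGb (idRep s) (N := s)
      (F := fun z => F (tmatD id z)) hm fun z => hFb _
    have h2 := location_eq hν hG hGb (u := idRep s) (fun i => i.isLt)
      (F := fun z => F (tmatD id z)) hm fun z => hFb _
    rw [Finset.sum_range] at h2
    rw [← snoc_idRep s]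
    exact mul_left_cancel₀ (Nat.cast_ne_zero.2 (by omega : s ≠ 0)) (h1.trans h2.symm)
  have hint : ∀ {ψ : Mat s → ℝ}, Measurable ψ → (∀ T, |ψ T| ≤ 1) →
      Integrable (fun ω => ψ (T₀ ω) * stepFun hν G (T₀ ω)) ν := fun {ψ} hψ hψb =>
    integrable_of_abs_le ((hψ.comp hT₀).mul ((measurable_stepFun hν hG).comp hT₀))
      (C := 1 * 5) fun ω => by
        show |ψ (T₀ ω) * stepFun hν G (T₀ ω)| ≤ _
        rw [abs_mul]
        exact mul_le_mul (hψb _) (abs_stepFun_le hν hGb _) (abs_nonneg _) zero_le_one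
  have habs : ∀ {ψ : Mat s → ℝ}, (∀ T, ψ T ∈ Set.Icc 0 1) → ∀ T, |ψ T| ≤ 1 := fun {ψ} h T =>
    abs_le.2 ⟨by linarith [(h T).1], (h T).2⟩
  have hlo : ∀ᵐ ω ∂ν, 0 ≤ stepFun hν G (T₀ ω) := by
    refine nonneg_of_test hT₀ (measurable_stepFun hν hG) (abs_stepFun_le hν hGb)
      fun ψ hψ h01 => ?_
    rw [hid ψ hψ (habs h01)]
    exact integral_nonneg fun ω => mul_nonneg (h01 _).1 (hG01 _).1
  have hhi : ∀ᵐ ω ∂ν, 0 ≤ 1 - stepFun hν G (T₀ ω) := by
    refine nonneg_of_test hT₀ (K := fun T => 1 - stepFun hν G T)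
      ((measurable_stepFun hν hG).const_sub 1) (C := 1 + 5) (fun T => (abs_sub _ _).trans
        (add_le_add abs_one.le (abs_stepFun_le hν hGb T))) fun ψ hψ h01 => ?_
    simp only [mul_sub, mul_one]
    have hψi : Integrable (fun ω => ψ (T₀ ω)) ν :=
      integrable_of_abs_le (hψ.comp hT₀) fun ω => habs h01 _
    rw [integral_sub hψi (hint hψ (habs h01)), hid ψ hψ (habs h01), sub_nonneg]
    refine integral_mono (integrable_of_abs_le ((hψ.comp hT₀).mul
      (hG.comp (measurable_tmat _))) (C := 1) fun ω => ?_) hψi fun ω =>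
        mul_le_of_le_one_right (h01 _).1 (hG01 _).2
    show |ψ (T₀ ω) * G (tmat (idRep (s + 1)) ω)| ≤ 1
    rw [abs_mul]
    exact mul_le_one₀ (habs h01 _) (abs_nonneg _) (hGb _)
  have heq : ∀ᵐ ω ∂ν, stepClip hν G (T₀ ω) = stepFun hν G (T₀ ω) := by
    filter_upwards [hlo, hhi] with ω h1 h2
    rw [stepClip, min_eq_right (by linarith), max_eq_right h1]
  refine ⟨fun F hF hFb => ?_, heq⟩
  rw [← hid F hF hFb]
  exact integral_congr_ae (by filter_upwards [heq] with ω hω; rw [hω])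

/-- One step of the domination. -/
lemma step (hν : IsGGArray ν) {j : ℕ} {G : Mat (2 + j + 1) → ℝ} (hG : Measurable G)
    (hG01 : ∀ T, G T ∈ Set.Icc 0 1) :
    (∀ F : Mat (2 + j) → ℝ, Measurable F → (∀ T, |F T| ≤ 1) →
        ∫ ω, F (tmat (idRep (2 + j)) ω) * stepClip hν G (tmat (idRep (2 + j)) ω) ∂ν =
          ∫ ω, F (tmat (idRep (2 + j)) ω) * G (tmat (idRep (2 + j + 1)) ω) ∂ν) ∧
      ∀ n : ℕ, 2 ≤ n → ∀ F : RepData (n + j) → ℝ, Measurable F → (∀ z, F z ∈ Set.Icc 0 1) →
        ((2 + j : ℕ) : ℝ) * ∫ ω, F (repData (n + j) ω) * stepClip hν G (tmat (uD n j) ω) ∂ν ≤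
          ((n + j : ℕ) : ℝ) * ∫ ω, F (repData (n + j) ω) * G (tmat (uD n (j + 1)) ω) ∂ν := by
  have := hν.prob
  have hGb : ∀ T, |G T| ≤ 1 := fun T => abs_le.2 ⟨by linarith [(hG01 T).1], (hG01 T).2⟩
  obtain ⟨hfirst, heq⟩ := step_base hν (by omega : 1 ≤ 2 + j) hG hG01
  refine ⟨hfirst, fun n hn F hF h01 => ?_⟩
  set u := uD n j
  obtain ⟨π, hπ⟩ := exists_perm_extend u (uD_injective hn j)
  have hequ : ∀ᵐ ω ∂ν, stepClip hν G (tmat u ω) = stepFun hν G (tmat u ω) := by
    filter_upwards [ae_permRep hν π heq] with ω hω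
    have e : tmat (idRep (2 + j)) (permRep π ω) = tmat u ω := by
      funext a b
      show rbar (π (a : ℕ)) (π (b : ℕ)) ω = _
      rw [hπ, hπ]
      rfl
    rwa [e] at hω
  have hFb : ∀ z, |F z| ≤ 1 := fun z => abs_le.2 ⟨by linarith [(h01 z).1], (h01 z).2⟩
  rw [integral_congr_ae (show (fun ω => F (repData (n + j) ω) * stepClip hν G (tmat u ω)) =ᵐ[ν]
      fun ω => F (repData (n + j) ω) * stepFun hν G (tmat u ω) from by
        filter_upwards [hequ] with ω hω; rw [hω]),
    integral_stepFun hν (by omega : 1 ≤ 2 + j) hG hGb u hF hFb, ← snoc_uD n j,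
    location_eq hν hG hGb (u := u) (uD_lt hn j) hF hFb]
  refine sub_le_sub_right ?_ _
  rw [← Finset.sum_image (f := fun q =>
    ∫ ω, F (repData (n + j) ω) * G (tmat (Fin.snoc u q) ω) ∂ν)
    fun a _ b _ h => uD_injective hn j h]
  refine Finset.sum_le_sum_of_subset_of_nonneg (fun q hq => ?_) fun q _ _ =>
    integral_nonneg fun ω => mul_nonneg (h01 _).1 (hG01 _).1
  obtain ⟨i, -, rfl⟩ := Finset.mem_image.1 hq
  exact Finset.mem_range.2 (uD_lt hn j i)

lemma dominate_aux (hν : IsGGArray ν) (j : ℕ) : ∀ (G : Mat (2 + j) → ℝ) (φ : ℝ → ℝ),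
    Measurable G → (∀ T, G T ∈ Set.Icc 0 1) → Measurable φ → (∀ q, φ q ∈ Set.Icc 0 1) →
    (∀ ψ : ℝ → ℝ, Measurable ψ → (∀ q, |ψ q| ≤ 1) →
      ∫ ω, ψ (rbar 0 1 ω) * G (tmat (idRep (2 + j)) ω) ∂ν =
        ∫ ω, ψ (rbar 0 1 ω) * φ (rbar 0 1 ω) ∂ν) →
    ∀ n : ℕ, 2 ≤ n → ∀ F : RepData n → ℝ, Measurable F → (∀ z, F z ∈ Set.Icc 0 1) →
      ((2 : ℝ) / n) ^ j * ∫ ω, F (repData n ω) * φ (rbar 0 1 ω) ∂ν ≤
        ∫ ω, F (repData n ω) * G (tmat (uD n j) ω) ∂ν := by
  have := hν.prob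
  induction j with
  | zero =>
    intro G φ hG hG01 hφ hφ01 hid n hn F hF hF01
    set ρ := rhoVal hν
    set M : ℝ → Mat 2 := fun q a b => if a = b then ρ else q
    have hM : Measurable M := measurable_pi_lambda _ fun a => measurable_pi_lambda _ fun b => by
      by_cases h : a = b <;> simp [M, h, measurable_id']
    have eM : ∀ᵐ ω ∂ν, tmat (idRep 2) ω = M (rbar 0 1 ω) := by
      filter_upwards [ae_good hν] with ω h
      funext a b
      fin_cases a <;> fin_cases b <;> simp [tmat, idRep, M, h.diag, h.symm 1 0, ρ]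
    have eU : uD n 0 = idRep 2 := funext fun i => if_pos i.isLt
    set ψ : ℝ → ℝ := fun q => G (M q) - φ q
    have hψ : Measurable ψ := (hG.comp hM).sub hφ
    have hψb : ∀ q, |ψ q| ≤ 1 := fun q => abs_le.2
      ⟨by linarith [(hG01 (M q)).1, (hφ01 q).2], by linarith [(hG01 (M q)).2, (hφ01 q).1]⟩
    have h := hid ψ hψ hψb
    have hae : ∀ᵐ ω ∂ν, ψ (rbar 0 1 ω) = 0 := by
      have hmψ : Measurable fun ω => ψ (rbar 0 1 ω) := hψ.comp (measurable_rbar 0 1)
      have hi : Integrable (fun ω => ψ (rbar 0 1 ω) * ψ (rbar 0 1 ω)) ν :=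
        integrable_of_abs_le (hmψ.mul hmψ) (C := 1) fun ω => by
          show |ψ (rbar 0 1 ω) * ψ (rbar 0 1 ω)| ≤ 1
          rw [abs_mul]
          exact mul_le_one₀ (hψb _) (abs_nonneg _) (hψb _)
      have i1 : Integrable (fun ω => ψ (rbar 0 1 ω) * G (M (rbar 0 1 ω))) ν :=
        integrable_of_abs_le (hmψ.mul ((hG.comp hM).comp (measurable_rbar 0 1))) (C := 1)
          fun ω => by
            show |ψ (rbar 0 1 ω) * G (M (rbar 0 1 ω))| ≤ 1
            rw [abs_mul, abs_of_nonneg (hG01 _).1]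
            exact mul_le_one₀ (hψb _) (hG01 _).1 (hG01 _).2
      have i2 : Integrable (fun ω => ψ (rbar 0 1 ω) * φ (rbar 0 1 ω)) ν :=
        integrable_of_abs_le (hmψ.mul (hφ.comp (measurable_rbar 0 1))) (C := 1)
          fun ω => by
            show |ψ (rbar 0 1 ω) * φ (rbar 0 1 ω)| ≤ 1
            rw [abs_mul, abs_of_nonneg (hφ01 _).1]
            exact mul_le_one₀ (hψb _) (hφ01 _).1 (hφ01 _).2
      have hzero : ∫ ω, ψ (rbar 0 1 ω) * ψ (rbar 0 1 ω) ∂ν = 0 := by
        have e : (fun ω => ψ (rbar 0 1 ω) * ψ (rbar 0 1 ω)) =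
            fun ω => ψ (rbar 0 1 ω) * G (M (rbar 0 1 ω)) - ψ (rbar 0 1 ω) * φ (rbar 0 1 ω) := by
          funext ω
          rw [← mul_sub]
        rw [e, integral_sub i1 i2, ← h, sub_eq_zero]
        exact integral_congr_ae (by filter_upwards [eM] with ω hω; rw [hω])
      filter_upwards [(integral_eq_zero_iff_of_nonneg_ae
        (Eventually.of_forall fun ω => mul_self_nonneg _) hi).1 hzero] with ω hω
      exact mul_self_eq_zero.1 hω
    rw [pow_zero, one_mul, eU]
    refine le_of_eq (integral_congr_ae ?_)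
    filter_upwards [hae, eM] with ω h1 h2
    rw [h2, sub_eq_zero.1 h1]
  | succ j ih =>
    intro G φ hG hG01 hφ hφ01 hid n hn F hF hF01
    obtain ⟨s1, s2⟩ := step hν (j := j) hG hG01
    set H := stepClip hν (s := 2 + j) G
    have hH : Measurable H := measurable_const.max (measurable_const.min (measurable_stepFun hν hG))
    have hH01 : ∀ T, H T ∈ Set.Icc 0 1 := fun T =>
      ⟨le_max_left _ _, max_le zero_le_one (min_le_left _ _)⟩
    have hidH : ∀ ψ : ℝ → ℝ, Measurable ψ → (∀ q, |ψ q| ≤ 1) →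
        ∫ ω, ψ (rbar 0 1 ω) * H (tmat (idRep (2 + j)) ω) ∂ν =
          ∫ ω, ψ (rbar 0 1 ω) * φ (rbar 0 1 ω) ∂ν := by
      intro ψ hψ hψb
      rw [← hid ψ hψ hψb]
      exact s1 (fun T => ψ (T ⟨0, by omega⟩ ⟨1, by omega⟩))
        (hψ.comp ((measurable_pi_apply _).comp (measurable_pi_apply _))) fun T => hψb _
    have h1 := ih H φ hH hH01 hφ hφ01 hidH n hn F hF hF01
    have h2 := s2 n hn (fun z => F (restrictData (Nat.le_add_right n j) z))
      (hF.comp (measurable_restrictData _)) fun z => hF01 _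
    simp only [restrictData_repData] at h2
    set a := ∫ ω, F (repData n ω) * φ (rbar 0 1 ω) ∂ν
    set b := ∫ ω, F (repData n ω) * H (tmat (uD n j) ω) ∂ν
    set c := ∫ ω, F (repData n ω) * G (tmat (uD n (j + 1)) ω) ∂ν
    have hb0 : 0 ≤ b := integral_nonneg fun ω => mul_nonneg (hF01 _).1 (hH01 _).1
    have hn' : (2 : ℝ) ≤ n := by exact_mod_cast hn
    push_cast at h2
    calc ((2 : ℝ) / n) ^ (j + 1) * a = 2 / n * (((2 : ℝ) / n) ^ j * a) := by ring
      _ ≤ 2 / n * b := mul_le_mul_of_nonneg_left h1 (by positivity)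
      _ ≤ (2 + j) / (n + j) * b := by
          refine mul_le_mul_of_nonneg_right ?_ hb0
          rw [div_le_div_iff₀ (by linarith) (by positivity)]
          nlinarith [mul_nonneg (Nat.cast_nonneg j : (0 : ℝ) ≤ j) (sub_nonneg.2 hn')]
      _ ≤ c := by
          rw [div_mul_eq_mul_div, div_le_iff₀ (by positivity)]
          linarith

lemma dominate (hν : IsGGArray ν) (n d : ℕ) (hn : 2 ≤ n) (κ : Kernel ℝ (Mat (2 + d)))
    (hκ : IsMarkovKernel κ)
    (hdis : ν.map (fun ω => (rbar 0 1 ω, tmat (idRep (2 + d)) ω)) = (overlapLaw ν) ⊗ₘ κ)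
    (A : Set (Mat n)) (B : Set (Mat (2 + d))) (hA : MeasurableSet A) (hB : MeasurableSet B) :
    ((2 : ℝ) / n) ^ d *
        ∫ ω in {ω | tmat (idRep n) ω ∈ A}, (κ (rbar 0 1 ω)).real B ∂ν ≤
      ν.real {ω | tmat (idRep n) ω ∈ A ∧
        tmat (fun i : Fin (2 + d) => if i.val < 2 then i.val else n + (i.val - 2)) ω ∈ B} := by
  have := hν.prob
  have := isProbability_overlapLaw hν
  set φ : ℝ → ℝ := fun q => (κ q).real B
  have hφ : Measurable φ := (κ.measurable_coe hB).ennreal_toReal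
  have hφ01 : ∀ q, φ q ∈ Set.Icc 0 1 := fun q => ⟨measureReal_nonneg, measureReal_le_one⟩
  have hid : ∀ ψ : ℝ → ℝ, Measurable ψ → (∀ q, |ψ q| ≤ 1) →
      ∫ ω, ψ (rbar 0 1 ω) * B.indicator (1 : Mat (2 + d) → ℝ) (tmat (idRep (2 + d)) ω) ∂ν =
        ∫ ω, ψ (rbar 0 1 ω) * φ (rbar 0 1 ω) ∂ν := by
    intro ψ hψ hψb
    have hm : Measurable fun z : ℝ × Mat (2 + d) =>
        ψ z.1 * B.indicator (1 : Mat (2 + d) → ℝ) z.2 :=
      (hψ.comp measurable_fst).mul ((measurable_one.indicator hB).comp measurable_snd)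
    have hb : ∀ z : ℝ × Mat (2 + d), |ψ z.1 * B.indicator (1 : Mat (2 + d) → ℝ) z.2| ≤ 1 :=
      fun z => by
        rw [abs_mul]
        exact mul_le_one₀ (hψb _) (abs_nonneg _) (abs_indicator_one_le _ _)
    calc ∫ ω, ψ (rbar 0 1 ω) * B.indicator (1 : Mat (2 + d) → ℝ) (tmat (idRep (2 + d)) ω) ∂ν
        = ∫ z, ψ z.1 * B.indicator (1 : Mat (2 + d) → ℝ) z.2
            ∂(ν.map fun ω => (rbar 0 1 ω, tmat (idRep (2 + d)) ω)) :=
          (integral_map ((measurable_rbar 0 1).prodMk (measurable_tmat _)).aemeasurable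
            hm.aestronglyMeasurable).symm
      _ = ∫ q, ∫ T, ψ q * B.indicator (1 : Mat (2 + d) → ℝ) T ∂κ q ∂overlapLaw ν := by
          rw [hdis, Measure.integral_compProd (integrable_of_abs_le hm hb)]
      _ = ∫ q, ψ q * φ q ∂overlapLaw ν := by
          refine integral_congr_ae (Eventually.of_forall fun q => ?_)
          simp only [integral_const_mul, integral_indicator_one hB, φ]
      _ = ∫ ω, ψ (rbar 0 1 ω) * φ (rbar 0 1 ω) ∂ν :=
          integral_map (measurable_rbar 0 1).aemeasurable (hψ.mul hφ).aestronglyMeasurable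
  have hB01 : ∀ T, B.indicator (1 : Mat (2 + d) → ℝ) T ∈ Set.Icc 0 1 := fun T => by
    by_cases h : T ∈ B <;> simp [h]
  have key := dominate_aux hν d (B.indicator 1) φ (measurable_one.indicator hB) hB01 hφ hφ01 hid
    n hn (fun z => A.indicator (1 : Mat n → ℝ) (tmatD id z))
    ((measurable_one.indicator hA).comp (measurable_tmatD id)) fun z => by
      by_cases h : tmatD id z ∈ A <;> simp [h]
  have hAT : MeasurableSet {ω | tmat (idRep n) ω ∈ A} := hA.preimage (measurable_tmat _)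
  convert key using 1
  · congr 1
    rw [← integral_indicator hAT]
    refine integral_congr_ae (Eventually.of_forall fun ω => ?_)
    show Set.indicator {ω | tmat (idRep n) ω ∈ A} _ ω =
      A.indicator (1 : Mat n → ℝ) (tmat (idRep n) ω) * φ (rbar 0 1 ω)
    by_cases h : tmat (idRep n) ω ∈ A <;> simp [h, φ]
  · have hAB : MeasurableSet {ω | tmat (idRep n) ω ∈ A ∧ tmat (uD n d) ω ∈ B} :=
      hAT.inter (hB.preimage (measurable_tmat _))
    show ν.real {ω | tmat (idRep n) ω ∈ A ∧ tmat (uD n d) ω ∈ B} = _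
    rw [← integral_indicator_one hAB]
    refine integral_congr_ae (Eventually.of_forall fun ω => ?_)
    show _ = A.indicator (1 : Mat n → ℝ) (tmat (idRep n) ω) *
      B.indicator (1 : Mat (2 + d) → ℝ) (tmat (uD n d) ω)
    by_cases h : tmat (idRep n) ω ∈ A <;> by_cases h' : tmat (uD n d) ω ∈ B <;>
      simp [h, h']

end Vale.Agent.P168.Tree
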