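import Vale.Agent.P168.Tree.Base

/-! Site averages of exchangeable arrays. -/

open MeasureTheory ProbabilityTheory Filter
open scoped BigOperators NNReal ENNReal

noncomputable section

namespace Vale.Agent.P168.Tree

variable {ν : Measure Arr}

/-- The average of a spin product over the first `N` sites. -/
def siteAvg (L : List ℕ) (N : ℕ) (ω : Arr) : ℝ :=
  (∑ i ∈ Finset.range N, spinProd L i ω) / N

lemma measurable_siteAvg (L : List ℕ) (N : ℕ) : Measurable (siteAvg L N) :=
  (Finset.measurable_sum _ fun i _ => measurable_spinProd L i).div_const _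

lemma spinProd_sq (L : List ℕ) (i : ℕ) (ω : Arr) : spinProd L i ω ^ 2 = 1 := by
  induction L with
  | nil => simp [spinProd]
  | cons a L ih =>
    have : spinProd (a :: L) i ω = spin (ω.1 a i) * spinProd L i ω := by simp [spinProd]
    rw [this, mul_pow, ih]
    cases ω.1 a i <;> simp [spin]

lemma abs_spinProd (L : List ℕ) (i : ℕ) (ω : Arr) : |spinProd L i ω| = 1 := by
  have := spinProd_sq L i ω
  rw [sq_eq_one_iff] at this
  rcases this with h | h <;> simp [h]

lemma abs_siteAvg_le (L : List ℕ) (N : ℕ) (ω : Arr) : |siteAvg L N ω| ≤ 1 := by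
  rw [siteAvg, abs_div, Nat.abs_cast]
  refine div_le_one_of_le₀ ((Finset.abs_sum_le_sum_abs _ _).trans ?_) (Nat.cast_nonneg N)
  simp [abs_spinProd]

lemma spinProd_permSite (L : List ℕ) (π : Equiv.Perm ℕ) (i : ℕ) (ω : Arr) :
    spinProd L i (permSite π ω) = spinProd L (π i) ω := rfl

lemma integral_permSite (hν : IsGGArray ν) (π : Equiv.Perm ℕ) {f : Arr → ℝ} (hf : Measurable f) :
    ∫ ω, f (permSite π ω) ∂ν = ∫ ω, f ω ∂ν := by
  conv_rhs => rw [← hν.exch_site π]
  exact (integral_map (measurable_permSite π).aemeasurable hf.aestronglyMeasurable).symm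

/-- A permutation with prescribed values on `0, …, M-1`. -/
lemma exists_perm_extend {M : ℕ} (f : Fin M → ℕ) (hf : Function.Injective f) :
    ∃ π : Equiv.Perm ℕ, ∀ i : Fin M, π i = f i := by
  induction M with
  | zero => exact ⟨1, fun i => i.elim0⟩
  | succ M ih =>
    obtain ⟨π, hπ⟩ := ih (f ∘ Fin.castSucc) (hf.comp (Fin.castSucc_injective M))
    refine ⟨Equiv.swap (π M) (f (Fin.last M)) * π, fun i => ?_⟩
    simp only [Equiv.Perm.mul_apply]
    induction i using Fin.lastCases with
    | last => simp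
    | cast i =>
      have h1 : π (i : ℕ) = f i.castSucc := hπ i
      rw [Fin.val_castSucc, h1, Equiv.swap_apply_of_ne_of_ne]
      · rw [← h1]
        intro h
        exact absurd (π.injective h) (by omega)
      · exact fun h => (Fin.castSucc_lt_last i).ne (hf h)

lemma integral_pair (hν : IsGGArray ν) (L : List ℕ) {i j : ℕ} (hij : i ≠ j) :
    ∫ ω, spinProd L i ω * spinProd L j ω ∂ν = ∫ ω, spinProd L 0 ω * spinProd L 1 ω ∂ν := by
  obtain ⟨π, hπ⟩ := exists_perm_extend ![i, j] (by
    intro a b hab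
    fin_cases a <;> fin_cases b <;> simp_all)
  have h0 : π 0 = i := hπ 0
  have h1 : π 1 = j := hπ 1
  rw [← integral_permSite hν π ((measurable_spinProd L 0).fun_mul (measurable_spinProd L 1))]
  simp [spinProd_permSite, h0, h1]

lemma integral_avg_mul (hν : IsGGArray ν) (L : List ℕ) {n m : ℕ} (hn : 1 ≤ n) (hnm : n ≤ m) :
    ∫ ω, siteAvg L n ω * siteAvg L m ω ∂ν =
      1 / (m : ℝ) + (1 - 1 / (m : ℝ)) * ∫ ω, spinProd L 0 ω * spinProd L 1 ω ∂ν := by
  have := hν.prob
  set c := ∫ ω, spinProd L 0 ω * spinProd L 1 ω ∂ν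
  have hint : ∀ i j, Integrable (fun ω => spinProd L i ω * spinProd L j ω) ν := fun i j =>
    integrable_of_abs_le ((measurable_spinProd L i).fun_mul (measurable_spinProd L j)) (C := 1)
      fun ω => by simp [abs_mul, abs_spinProd]
  have hij : ∀ i j, ∫ ω, spinProd L i ω * spinProd L j ω ∂ν = c + if i = j then 1 - c else 0 := by
    intro i j
    rcases eq_or_ne i j with rfl | h
    · simp [← sq, spinProd_sq]
    · rw [integral_pair hν L h, if_neg h, add_zero]
  simp only [siteAvg, div_mul_div_comm, Finset.sum_mul_sum, integral_div]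
  rw [integral_finsetSum _ fun i _ => integrable_finsetSum _ fun j _ => hint i j]
  simp only [integral_finsetSum _ fun j _ => hint _ j, hij, Finset.sum_add_distrib,
    Finset.sum_const, Finset.card_range, nsmul_eq_mul, Finset.sum_ite_eq, Finset.mem_range]
  rw [Finset.sum_congr rfl fun i hi => if_pos (lt_of_lt_of_le (Finset.mem_range.1 hi) hnm)]
  simp only [Finset.sum_const, Finset.card_range, nsmul_eq_mul]
  have : (n : ℝ) ≠ 0 := by exact_mod_cast (by omega : n ≠ 0)
  have : (m : ℝ) ≠ 0 := by exact_mod_cast (by omega : m ≠ 0)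
  field_simp
  ring

lemma integral_abs_step (hν : IsGGArray ν) (L : List ℕ) (k : ℕ) :
    ∫ ω, |siteAvg L (4 ^ (k + 1)) ω - siteAvg L (4 ^ k) ω| ∂ν ≤ 2 * (1 / 2) ^ k := by
  have := hν.prob
  set f := fun ω => siteAvg L (4 ^ (k + 1)) ω - siteAvg L (4 ^ k) ω with hf
  set t : ℝ := (1 / 2) ^ k with ht
  have ht0 : 0 < t := by positivity
  set a := siteAvg L (4 ^ k)
  set b := siteAvg L (4 ^ (k + 1))
  have hm : ∀ n m : ℕ, Measurable fun ω => siteAvg L n ω * siteAvg L m ω := fun n m =>
    (measurable_siteAvg L n).fun_mul (measurable_siteAvg L m)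
  have hi : ∀ n m : ℕ, Integrable (fun ω => siteAvg L n ω * siteAvg L m ω) ν := fun n m =>
    integrable_of_abs_le (hm n m) (C := 1) fun ω => by
      rw [abs_mul]
      exact mul_le_one₀ (abs_siteAvg_le L n ω) (abs_nonneg _) (abs_siteAvg_le L m ω)
  have hN : (1 : ℕ) ≤ 4 ^ k := Nat.one_le_pow _ _ (by norm_num)
  have hM : (1 : ℕ) ≤ 4 ^ (k + 1) := Nat.one_le_pow _ _ (by norm_num)
  have hNM : (4 : ℕ) ^ k ≤ 4 ^ (k + 1) := Nat.pow_le_pow_right (by norm_num) (by omega)
  set c := ∫ ω, spinProd L 0 ω * spinProd L 1 ω ∂ν with hc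
  have hc1 : -1 ≤ c := by
    have h := norm_integral_le_of_norm_le_const (μ := ν) (C := 1)
      (f := fun ω => spinProd L 0 ω * spinProd L 1 ω)
      (Eventually.of_forall fun ω => by simp [abs_spinProd])
    simp only [Real.norm_eq_abs, probReal_univ, mul_one] at h
    exact (abs_le.1 h).1
  have hsq : ∫ ω, f ω ^ 2 ∂ν ≤ 2 * t ^ 2 := by
    have e : (fun ω => f ω ^ 2) = fun ω => (b ω * b ω + a ω * a ω) - (a ω * b ω + a ω * b ω) := by
      funext ω
      simp only [f, a, b]
      ring
    have ibb : Integrable (fun ω => b ω * b ω) ν := hi _ _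
    have iaa : Integrable (fun ω => a ω * a ω) ν := hi _ _
    have iab : Integrable (fun ω => a ω * b ω) ν := hi _ _
    rw [e, integral_sub (ibb.fun_add iaa) (iab.fun_add iab), integral_add ibb iaa,
      integral_add iab iab]
    rw [show ∫ ω, b ω * b ω ∂ν = _ from integral_avg_mul hν L hM le_rfl,
      show ∫ ω, a ω * a ω ∂ν = _ from integral_avg_mul hν L hN le_rfl,
      show ∫ ω, a ω * b ω ∂ν = _ from integral_avg_mul hν L hN hNM]
    have h4 : (1 : ℝ) / ((4 ^ k : ℕ) : ℝ) = t ^ 2 := by
      rw [ht, ← pow_mul, mul_comm k, pow_mul]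
      norm_num [div_pow]
    have h5 : (1 : ℝ) / ((4 ^ (k + 1) : ℕ) : ℝ) = t ^ 2 / 4 := by
      rw [← h4]
      push_cast
      ring
    rw [h4, h5, ← hc]
    have : 0 ≤ t ^ 2 * (1 + c) := mul_nonneg (sq_nonneg t) (by linarith)
    have hc2 : c ≤ 1 := by
      have h := norm_integral_le_of_norm_le_const (μ := ν) (C := 1)
        (f := fun ω => spinProd L 0 ω * spinProd L 1 ω)
        (Eventually.of_forall fun ω => by simp [abs_spinProd])
      simp only [Real.norm_eq_abs, probReal_univ, mul_one] at h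
      exact (abs_le.1 h).2
    nlinarith [mul_le_mul_of_nonneg_left hc2 (sq_nonneg t)]
  have hfm : Measurable f := (measurable_siteAvg L _).sub (measurable_siteAvg L _)
  have hf2 : ∀ ω, |f ω| ≤ 2 := fun ω => (abs_sub _ _).trans
    ((add_le_add (abs_siteAvg_le L _ ω) (abs_siteAvg_le L _ ω)).trans (by norm_num))
  have hfint : Integrable (fun ω => |f ω|) ν :=
    (integrable_of_abs_le hfm hf2).abs
  have hf2int : Integrable (fun ω => f ω ^ 2) ν :=
    integrable_of_abs_le (hfm.pow_const 2) (C := 2 ^ 2) fun ω => by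
      rw [abs_pow]
      exact pow_le_pow_left₀ (abs_nonneg _) (hf2 ω) 2
  calc ∫ ω, |f ω| ∂ν ≤ ∫ ω, (f ω ^ 2 / (2 * t) + t / 2) ∂ν := by
        refine integral_mono hfint ((hf2int.div_const _).add (integrable_const _)) fun ω => ?_
        have h := sq_nonneg (|f ω| - t)
        rw [sub_sq, sq_abs] at h
        rw [div_add_div _ _ (by positivity) (by norm_num), le_div_iff₀ (by positivity)]
        linarith
    _ = (∫ ω, f ω ^ 2 ∂ν) / (2 * t) + t / 2 := by
        rw [integral_add (hf2int.div_const _) (integrable_const _), integral_div]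
        simp
    _ ≤ 2 * t ^ 2 / (2 * t) + t / 2 := by gcongr
    _ ≤ 2 * t := by
        rw [show 2 * t ^ 2 / (2 * t) = t by field_simp]
        linarith

/-- The site averages converge along powers of four. -/
lemma rset_tendsto (hν : IsGGArray ν) (L : List ℕ) :
    ∀ᵐ ω ∂ν, Tendsto (fun k : ℕ => (∑ i ∈ Finset.range (4 ^ k), spinProd L i ω) / (4 : ℝ) ^ k)
      atTop (nhds (rset L ω)) := by
  have := hν.prob
  set f : ℕ → Arr → ℝ := fun k ω => siteAvg L (4 ^ (k + 1)) ω - siteAvg L (4 ^ k) ω
  have hfm : ∀ k, Measurable (f k) := fun k => (measurable_siteAvg L _).sub (measurable_siteAvg L _)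
  have hint : ∀ k, Integrable (f k) ν := fun k => integrable_of_abs_le (hfm k) (C := 1 + 1)
    fun ω => (abs_sub _ _).trans (add_le_add (abs_siteAvg_le L _ ω) (abs_siteAvg_le L _ ω))
  have hfin : ∀ᵐ ω ∂ν, Summable fun k => |f k ω| := by
    have h1 : ∫⁻ ω, ∑' k, ENNReal.ofReal |f k ω| ∂ν ≠ ⊤ := by
      rw [lintegral_tsum fun k => ((hfm k).abs.ennreal_ofReal).aemeasurable]
      simp only [← ofReal_integral_eq_lintegral_ofReal (hint _).abs
        (Eventually.of_forall fun ω => abs_nonneg _)]
      refine ne_top_of_le_ne_top ?_ (ENNReal.tsum_le_tsum fun k =>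
        ENNReal.ofReal_le_ofReal (integral_abs_step hν L k))
      rw [← ENNReal.ofReal_tsum_of_nonneg (fun k => by positivity)
        (summable_geometric_two.mul_left 2)]
      exact ENNReal.ofReal_ne_top
    filter_upwards [ae_lt_top (Measurable.ennreal_tsum fun k => (hfm k).abs.ennreal_ofReal) h1]
      with ω hω
    have := ENNReal.summable_toReal hω.ne
    simpa using this
  filter_upwards [hfin] with ω hω
  have hs : Summable fun k => f k ω := hω.of_abs
  have h2 : Tendsto (fun k => siteAvg L (4 ^ k) ω) atTop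
      (nhds (siteAvg L (4 ^ 0) ω + ∑' k, f k ω)) := by
    have := hs.hasSum.tendsto_sum_nat.const_add (siteAvg L (4 ^ 0) ω)
    refine this.congr fun k => ?_
    simp only [f]
    rw [Finset.sum_range_sub (fun k => siteAvg L (4 ^ k) ω)]
    ring
  have e : (fun k : ℕ => (∑ i ∈ Finset.range (4 ^ k), spinProd L i ω) / (4 : ℝ) ^ k) =
      fun k => siteAvg L (4 ^ k) ω := by
    funext k
    simp [siteAvg]
  rw [rset, e, h2.limsup_eq]
  exact h2

lemma abs_rset_le (hν : IsGGArray ν) (L : List ℕ) : ∀ᵐ ω ∂ν, |rset L ω| ≤ 1 := by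
  filter_upwards [rset_tendsto hν L] with ω hω
  refine le_of_tendsto hω.abs (Eventually.of_forall fun k => ?_)
  simpa [siteAvg] using abs_siteAvg_le L (4 ^ k) ω

/-- Products of spins at distinct sites are products of multi-overlaps. -/
lemma site_factor_of_invariant (hν : IsGGArray ν) {M : ℕ} (L : Fin M → List ℕ) {G : Arr → ℝ}
    (hG : Measurable G) (hGinv : ∀ π ω, G (permSite π ω) = G ω) (hGb : ∀ ω, |G ω| ≤ 1) :
    ∫ ω, G ω * ∏ i, spinProd (L i) i ω ∂ν = ∫ ω, G ω * ∏ i, rset (L i) ω ∂ν := by
  classical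
  have := hν.prob
  set a := ∫ ω, G ω * ∏ i, spinProd (L i) i ω ∂ν with ha
  have hterm : ∀ g : Fin M → ℕ, Measurable fun ω => G ω * ∏ i, spinProd (L i) (g i) ω := fun g =>
    hG.fun_mul (Finset.measurable_prod _ fun i _ => measurable_spinProd _ _)
  have htb : ∀ (g : Fin M → ℕ) ω, |G ω * ∏ i, spinProd (L i) (g i) ω| ≤ 1 := fun g ω => by
    simpa [abs_mul, Finset.abs_prod, abs_spinProd] using hGb ω
  have hinj : ∀ g : Fin M → ℕ, Function.Injective g →
      ∫ ω, G ω * ∏ i, spinProd (L i) (g i) ω ∂ν = a := by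
    intro g hg
    obtain ⟨π, hπ⟩ := exists_perm_extend g hg
    rw [ha, ← integral_permSite hν π (hterm fun i => (i : ℕ))]
    simp [hGinv, spinProd_permSite, hπ]
  have hlim : Tendsto (fun k : ℕ => ∫ ω, G ω * ∏ i, siteAvg (L i) (4 ^ k) ω ∂ν) atTop
      (nhds (∫ ω, G ω * ∏ i, rset (L i) ω ∂ν)) := by
    refine tendsto_integral_of_dominated_convergence (fun _ => 1)
      (fun k => (hG.fun_mul (Finset.measurable_prod _ fun i _ =>
        measurable_siteAvg _ _)).aestronglyMeasurable) (integrable_const _) (fun k => ?_) ?_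
    · refine Eventually.of_forall fun ω => ?_
      rw [Real.norm_eq_abs, abs_mul, Finset.abs_prod]
      exact mul_le_one₀ (hGb ω) (Finset.prod_nonneg fun i _ => abs_nonneg _)
        (Finset.prod_le_one (fun i _ => abs_nonneg _) fun i _ => abs_siteAvg_le _ _ _)
    · have : ∀ᵐ ω ∂ν, ∀ i : Fin M, Tendsto (fun k : ℕ => siteAvg (L i) (4 ^ k) ω) atTop
          (nhds (rset (L i) ω)) := by
        refine ae_all_iff.2 fun i => ?_
        filter_upwards [rset_tendsto hν (L i)] with ω hω
        simpa [siteAvg] using hω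
      filter_upwards [this] with ω hω
      exact (tendsto_finsetProd _ fun i _ => hω i).const_mul (G ω)
  have hdiff : ∀ k : ℕ, |∫ ω, G ω * ∏ i, siteAvg (L i) (4 ^ k) ω ∂ν - a| ≤
      2 * (1 - ((4 ^ k).descFactorial M : ℝ) / ((4 : ℝ) ^ k) ^ M) := by
    intro k
    set N := 4 ^ k with hN
    set P := Fintype.piFinset fun _ : Fin M => Finset.range N
    have hcard : (P.card : ℝ) = ((4 : ℝ) ^ k) ^ M := by simp [P, N]
    have hexp : ∀ ω, ∏ i, siteAvg (L i) N ω =
        (∑ g ∈ P, ∏ i, spinProd (L i) (g i) ω) / ((4 : ℝ) ^ k) ^ M := by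
      intro ω
      simp only [siteAvg, Finset.prod_div_distrib, Finset.prod_const, Finset.card_univ,
        Fintype.card_fin]
      rw [Finset.prod_univ_sum]
      simp [N, P]
    have hI : ∫ ω, G ω * ∏ i, siteAvg (L i) N ω ∂ν =
        (∑ g ∈ P, ∫ ω, G ω * ∏ i, spinProd (L i) (g i) ω ∂ν) / ((4 : ℝ) ^ k) ^ M := by
      simp only [hexp, ← mul_div_assoc, Finset.mul_sum, integral_div]
      rw [integral_finsetSum _ fun g _ => integrable_of_abs_le (hterm g) (htb g)]
    have hpos : 0 < ((4 : ℝ) ^ k) ^ M := by positivity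
    rw [hI, div_sub' hpos.ne', abs_div, abs_of_pos hpos, div_le_iff₀ hpos, ← hcard,
      ← nsmul_eq_mul, ← Finset.sum_const, ← Finset.sum_sub_distrib]
    set bad := P.filter fun g => ¬Function.Injective g
    have hgood : (P.filter fun g => Function.Injective g).card = N.descFactorial M := by
      have e : (P.filter fun g => Function.Injective g) =
          (Finset.univ : Finset (Fin M ↪ Fin N)).image fun e i => (e i : ℕ) := by
        ext g
        simp only [Finset.mem_filter, P, Fintype.mem_piFinset, Finset.mem_range, Finset.mem_image,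
          Finset.mem_univ, true_and]
        constructor
        · rintro ⟨h1, h2⟩
          exact ⟨⟨fun i => ⟨g i, h1 i⟩, fun i j h => h2 (congrArg Fin.val h)⟩, rfl⟩
        · rintro ⟨e, rfl⟩
          exact ⟨fun i => (e i).isLt, fun i j h => e.injective (Fin.ext h)⟩
      rw [e, Finset.card_image_of_injective _ (fun e e' h =>
        DFunLike.ext _ _ fun i => Fin.ext (congrFun h i)), Finset.card_univ,
        Fintype.card_embedding_eq, Fintype.card_fin, Fintype.card_fin]
    have hbad : (bad.card : ℝ) = (P.card : ℝ) - (N.descFactorial M : ℝ) := by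
      have := Finset.card_filter_add_card_filter_not (s := P) fun g => Function.Injective g
      rw [hgood] at this
      rw [← this]
      simp [bad]
    calc |∑ g ∈ P, ((∫ ω, G ω * ∏ i, spinProd (L i) (g i) ω ∂ν) - a)|
        = |∑ g ∈ bad, ((∫ ω, G ω * ∏ i, spinProd (L i) (g i) ω ∂ν) - a)| := by
          rw [← Finset.sum_filter_add_sum_filter_not P fun g => Function.Injective g,
            Finset.sum_eq_zero (s := P.filter fun g => Function.Injective g) fun g hg => by
              rw [hinj g (Finset.mem_filter.1 hg).2, sub_self], zero_add]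
      _ ≤ ∑ g ∈ bad, |(∫ ω, G ω * ∏ i, spinProd (L i) (g i) ω ∂ν) - a| :=
          Finset.abs_sum_le_sum_abs _ _
      _ ≤ ∑ _g ∈ bad, (2 : ℝ) := by
          refine Finset.sum_le_sum fun g _ => (abs_sub _ _).trans ?_
          have hb : ∀ g : Fin M → ℕ, |∫ ω, G ω * ∏ i, spinProd (L i) (g i) ω ∂ν| ≤ 1 := fun g => by
            simpa using norm_integral_le_of_norm_le_const (μ := ν) (C := 1)
              (Eventually.of_forall fun ω => (Real.norm_eq_abs _).trans_le (htb g ω))
          have := hb g
          have := hb fun i => (i : ℕ)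
          linarith
      _ = 2 * (1 - (N.descFactorial M : ℝ) / P.card) * P.card := by
          have : (P.card : ℝ) ≠ 0 := by rw [hcard]; positivity
          rw [Finset.sum_const, nsmul_eq_mul, hbad]
          field_simp
  have hzero : Tendsto (fun k : ℕ => 2 * (1 - ((4 ^ k).descFactorial M : ℝ) / ((4 : ℝ) ^ k) ^ M))
      atTop (nhds 0) := by
    have h4 : Tendsto (fun k : ℕ => 4 ^ k) atTop atTop :=
      tendsto_pow_atTop_atTop_of_one_lt (by norm_num : (1 : ℕ) < 4)
    have h5 : Tendsto (fun n : ℕ => (n.descFactorial M : ℝ) / (n : ℝ) ^ M) atTop (nhds 1) := by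
      have : ∀ j : ℕ, Tendsto (fun n : ℕ => ((n : ℝ) - j) / n) atTop (nhds 1) := by
        intro j
        have := (tendsto_const_div_atTop_nhds_zero_nat (j : ℝ)).const_sub 1
        rw [sub_zero] at this
        refine this.congr' ?_
        filter_upwards [eventually_gt_atTop 0] with n hn
        have : (n : ℝ) ≠ 0 := by exact_mod_cast hn.ne'
        field_simp
      have := tendsto_finsetProd (Finset.range M) fun j _ => this j
      rw [Finset.prod_const_one] at this
      refine this.congr' ?_
      filter_upwards [eventually_ge_atTop M] with n hn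
      rw [Finset.prod_div_distrib, Finset.prod_const, Finset.card_range,
        Nat.descFactorial_eq_prod_range, Nat.cast_prod]
      congr 1
      refine Finset.prod_congr rfl fun j hj => ?_
      rw [Nat.cast_sub (by linarith [Finset.mem_range.1 hj])]
    have := ((h5.comp h4).const_sub 1).const_mul 2
    simpa using this
  have hlim' : Tendsto (fun k : ℕ => ∫ ω, G ω * ∏ i, siteAvg (L i) (4 ^ k) ω ∂ν) atTop (nhds a) := by
    rw [tendsto_iff_norm_sub_tendsto_zero]
    exact squeeze_zero (fun k => norm_nonneg _) (fun k => (Real.norm_eq_abs _).trans_le (hdiff k))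
      hzero
  exact tendsto_nhds_unique hlim' hlim

end Vale.Agent.P168.Tree
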