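import Vale.Agent.P168.Statements

/-! Weighted overlaps of a GG array and the joint form of the GG identities. -/

open MeasureTheory ProbabilityTheory Filter
open scoped BigOperators NNReal ENNReal

noncomputable section

namespace Vale.Agent.P168.Tree

/-- Truncation to `[-1, 1]`. -/
def clampUnit (x : ℝ) : ℝ := max (-1) (min 1 x)

lemma abs_clampUnit_le (x : ℝ) : |clampUnit x| ≤ 1 :=
  abs_le.2 ⟨le_max_left _ _, max_le (by norm_num) (min_le_left _ _)⟩

lemma clampUnit_eq {x : ℝ} (h : |x| ≤ 1) : clampUnit x = x := by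
  obtain ⟨h1, h2⟩ := abs_le.1 h
  rw [clampUnit, min_eq_right h2, max_eq_right h1]

/-- Weights of a combination of kernels. -/
structure IsWeight (α : ℕ → ℝ) : Prop where
  nonneg : ∀ g, 0 ≤ α g
  summable : Summable α

/-- A combination of the kernels, truncated so that it is continuous everywhere. -/
def comb (α k : ℕ → ℝ) : ℝ := ∑' g, α g * clampUnit (k g)

lemma IsWeight.abs_term_le {α : ℕ → ℝ} (hα : IsWeight α) (k : ℕ → ℝ) (g : ℕ) :
    |α g * clampUnit (k g)| ≤ α g := by
  rw [abs_mul, abs_of_nonneg (hα.nonneg g)]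
  exact mul_le_of_le_one_right (hα.nonneg g) (abs_clampUnit_le _)

lemma IsWeight.summable_term {α : ℕ → ℝ} (hα : IsWeight α) (k : ℕ → ℝ) :
    Summable fun g => α g * clampUnit (k g) :=
  Summable.of_norm_bounded hα.summable fun g => by
    simpa [Real.norm_eq_abs] using hα.abs_term_le k g

lemma continuous_comb {α : ℕ → ℝ} (hα : IsWeight α) : Continuous (comb α) := by
  refine continuous_tsum (fun g => ?_) hα.summable fun g k => ?_
  · unfold clampUnit
    fun_prop
  · simpa [Real.norm_eq_abs] using hα.abs_term_le k g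

lemma measurable_comb {α : ℕ → ℝ} (hα : IsWeight α) : Measurable (comb α) :=
  (continuous_comb hα).measurable

/-- The combination of kernels of two replicas. -/
def ov (α : ℕ → ℝ) (a b : ℕ) (ω : Arr) : ℝ := comb α (kvec a b ω)

/-- The combination of kernels read from the data of finitely many replicas. -/
def ovD (α : ℕ → ℝ) {n : ℕ} (a b : Fin n) (z : RepData n) : ℝ := comb α fun g => z.2 g a b

lemma ovD_repData (α : ℕ → ℝ) {n : ℕ} (a b : Fin n) (ω : Arr) :
    ovD α a b (repData n ω) = ov α a b ω := rfl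

lemma ov_permRep (α : ℕ → ℝ) (π : Equiv.Perm ℕ) (a b : ℕ) (ω : Arr) :
    ov α a b (permRep π ω) = ov α (π a) (π b) ω := rfl

lemma ov_permSite (α : ℕ → ℝ) (π : Equiv.Perm ℕ) (a b : ℕ) (ω : Arr) :
    ov α a b (permSite π ω) = ov α a b ω := rfl

lemma measurable_kernel (g a b : ℕ) : Measurable fun ω : Arr => ω.2 g a b :=
  (measurable_pi_apply b).comp ((measurable_pi_apply a).comp
    ((measurable_pi_apply g).comp measurable_snd))

lemma measurable_kvec (a b : ℕ) : Measurable (kvec a b) :=
  measurable_pi_lambda _ fun g => measurable_kernel g a b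

lemma measurable_ov {α : ℕ → ℝ} (hα : IsWeight α) (a b : ℕ) : Measurable (ov α a b) :=
  (measurable_comb hα).comp (measurable_kvec a b)

lemma measurable_ovD {α : ℕ → ℝ} (hα : IsWeight α) {n : ℕ} (a b : Fin n) :
    Measurable (ovD α a b) :=
  (measurable_comb hα).comp <| measurable_pi_lambda _ fun g =>
    (measurable_pi_apply b).comp ((measurable_pi_apply a).comp
      ((measurable_pi_apply g).comp measurable_snd))

lemma measurable_repData (n : ℕ) : Measurable (repData n) := by
  refine Measurable.prodMk ?_ ?_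
  · exact measurable_pi_lambda _ fun l => (measurable_pi_apply (l : ℕ)).comp measurable_fst
  · exact measurable_pi_lambda _ fun g => measurable_pi_lambda _ fun a =>
      measurable_pi_lambda _ fun b => measurable_kernel g a b

lemma measurable_permRep (π : Equiv.Perm ℕ) : Measurable (permRep π) := by
  refine Measurable.prodMk ?_ ?_
  · exact measurable_pi_lambda _ fun l => (measurable_pi_apply (π l)).comp measurable_fst
  · exact measurable_pi_lambda _ fun g => measurable_pi_lambda _ fun a =>
      measurable_pi_lambda _ fun b => measurable_kernel g (π a) (π b)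

lemma measurable_spinProd (L : List ℕ) (i : ℕ) : Measurable (spinProd L i) := by
  induction L with
  | nil => exact measurable_const
  | cons a L ih =>
    have h1 : Measurable fun ω : Arr => spin (ω.1 a i) :=
      (measurable_of_countable spin).comp
        ((measurable_pi_apply i).comp ((measurable_pi_apply a).comp measurable_fst))
    exact h1.mul ih

lemma measurable_permSite (π : Equiv.Perm ℕ) : Measurable (permSite π) := by
  refine Measurable.prodMk ?_ measurable_snd
  exact measurable_pi_lambda _ fun l => measurable_pi_lambda _ fun i =>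
    (measurable_pi_apply (π i)).comp ((measurable_pi_apply l).comp measurable_fst)

lemma abs_indicator_one_le {X : Type*} (A : Set X) (x : X) :
    |A.indicator (1 : X → ℝ) x| ≤ 1 := by
  by_cases h : x ∈ A <;> simp [h]

lemma abs_indicator_mul_le {X Y : Type*} (A : Set X) (B : Set Y) (x : X) (y : Y) :
    |A.indicator (1 : X → ℝ) x * B.indicator (1 : Y → ℝ) y| ≤ 1 := by
  by_cases h : x ∈ A <;> by_cases h' : y ∈ B <;> simp [h, h']

/-- A bounded measurable function is integrable. -/
lemma integrable_of_abs_le {X : Type*} [MeasurableSpace X] {μ : Measure X} [IsFiniteMeasure μ]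
    {f : X → ℝ} (hf : Measurable f) {C : ℝ} (hb : ∀ x, |f x| ≤ C) : Integrable f μ :=
  Integrable.of_bound hf.aestronglyMeasurable C (Eventually.of_forall fun x => by
    simpa [Real.norm_eq_abs] using hb x)

lemma integral_permRep {ν : Measure Arr} (hν : IsGGArray ν) (π : Equiv.Perm ℕ) {f : Arr → ℝ}
    (hf : Measurable f) : ∫ ω, f (permRep π ω) ∂ν = ∫ ω, f ω ∂ν := by
  conv_rhs => rw [← hν.exch_rep π]
  exact (integral_map (measurable_permRep π).aemeasurable hf.aestronglyMeasurable).symm

lemma ae_permRep {ν : Measure Arr} (hν : IsGGArray ν) (π : Equiv.Perm ℕ) {p : Arr → Prop}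
    (h : ∀ᵐ ω ∂ν, p ω) : ∀ᵐ ω ∂ν, p (permRep π ω) := by
  rw [← hν.exch_rep π] at h
  exact ae_of_ae_map (measurable_permRep π).aemeasurable h

lemma real_permRep {ν : Measure Arr} (hν : IsGGArray ν) (π : Equiv.Perm ℕ) {A : Set Arr}
    (hA : MeasurableSet A) : ν.real (permRep π ⁻¹' A) = ν.real A := by
  conv_rhs => rw [← hν.exch_rep π]
  rw [map_measureReal_apply (measurable_permRep π) hA]

/-- The constant diagonal of a kernel. -/
def diagVal {ν : Measure Arr} (hν : IsGGArray ν) (g : ℕ) : ℝ := (hν.diag g).choose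

lemma diagVal_spec {ν : Measure Arr} (hν : IsGGArray ν) (g a : ℕ) :
    ∀ᵐ ω ∂ν, ω.2 g a a = diagVal hν g :=
  (hν.diag g).choose_spec a

/-- A two-point quadratic form. -/
lemma kernel_abs_le {ν : Measure Arr} (hν : IsGGArray ν) (g a b : ℕ) :
    ∀ᵐ ω ∂ν, |ω.2 g a b| ≤ diagVal hν g := by
  set n := max a b + 1
  have ha : a < n := by omega
  have hb : b < n := by omega
  rcases eq_or_ne a b with rfl | hab
  · have h1 := hν.psd g n (fun i => if i = (⟨a, ha⟩ : Fin n) then 1 else 0)
    filter_upwards [h1, diagVal_spec hν g a] with ω h1 h2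
    simp only [ite_mul, one_mul, zero_mul, Finset.sum_ite_irrel, Finset.sum_const_zero,
      Finset.sum_ite_eq', Finset.mem_univ, if_true] at h1
    rw [h2] at h1 ⊢
    rw [abs_of_nonneg h1]
  · have hne : (⟨a, ha⟩ : Fin n) ≠ ⟨b, hb⟩ := fun h => hab (by simpa using congrArg Fin.val h)
    have hp := fun t : ℝ => hν.psd g n
      (fun i => (if i = (⟨a, ha⟩ : Fin n) then 1 else 0) + if i = (⟨b, hb⟩ : Fin n) then t else 0)
    filter_upwards [hp 1, hp (-1), diagVal_spec hν g a, diagVal_spec hν g b, hν.symm g a b]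
      with ω h1 h2 h3 h4 h5
    simp only [add_mul, mul_add, Finset.sum_add_distrib, ite_mul, mul_ite, one_mul, zero_mul,
      mul_one, mul_zero, Finset.sum_ite_eq', Finset.mem_univ, if_true, Finset.sum_ite_irrel,
      Finset.sum_const_zero, h3, h4, ← h5] at h1 h2
    rw [abs_le]
    constructor <;> linarith

lemma diagVal_nonneg {ν : Measure Arr} (hν : IsGGArray ν) (g : ℕ) : 0 ≤ diagVal hν g := by
  have := hν.prob
  obtain ⟨ω, hω⟩ := (kernel_abs_le hν g 0 0).exists
  exact le_trans (abs_nonneg _) hω

lemma diagVal_le_one {ν : Measure Arr} (hν : IsGGArray ν) (g : ℕ) : diagVal hν g ≤ 1 := by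
  have := hν.prob
  obtain ⟨ω, h1, h2⟩ := ((diagVal_spec hν g 0).and (hν.bound g 0 0)).exists
  rw [← h1]
  exact le_trans (le_abs_self _) h2

lemma clamp_diagVal {ν : Measure Arr} (hν : IsGGArray ν) (g : ℕ) :
    clampUnit (diagVal hν g) = diagVal hν g :=
  clampUnit_eq (by rw [abs_of_nonneg (diagVal_nonneg hν g)]; exact diagVal_le_one hν g)

/-- The diagonal value of a combination. -/
def topVal {ν : Measure Arr} (hν : IsGGArray ν) (α : ℕ → ℝ) : ℝ := comb α (diagVal hν)

/-- The almost sure properties of the kernels. -/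
def Regular {ν : Measure Arr} (hν : IsGGArray ν) (ω : Arr) : Prop :=
  ∀ g a b, |ω.2 g a b| ≤ diagVal hν g ∧ ω.2 g a b = ω.2 g b a ∧ ω.2 g a a = diagVal hν g

lemma ae_regular {ν : Measure Arr} (hν : IsGGArray ν) : ∀ᵐ ω ∂ν, Regular hν ω := by
  simp only [Regular, ae_all_iff]
  intro g a b
  filter_upwards [kernel_abs_le hν g a b, hν.symm g a b, diagVal_spec hν g a] with ω h1 h2 h3
  exact ⟨h1, h2, h3⟩

section Regular

variable {ν : Measure Arr} {hν : IsGGArray ν} {ω : Arr} {α : ℕ → ℝ}

lemma Regular.clamp (h : Regular hν ω) (g a b : ℕ) : clampUnit (ω.2 g a b) = ω.2 g a b :=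
  clampUnit_eq ((h g a b).1.trans (diagVal_le_one hν g))

lemma Regular.ov_eq (h : Regular hν ω) (a b : ℕ) :
    ov α a b ω = ∑' g, α g * ω.2 g a b :=
  tsum_congr fun g => by rw [show kvec a b ω g = ω.2 g a b from rfl, h.clamp]

lemma Regular.ov_symm (h : Regular hν ω) (a b : ℕ) : ov α a b ω = ov α b a ω := by
  unfold ov kvec
  simp only [(h _ a b).2.1]

lemma Regular.ov_diag (h : Regular hν ω) (a : ℕ) : ov α a a ω = topVal hν α :=
  congrArg (comb α) (funext fun g => (h g a a).2.2)

lemma Regular.ov_abs_le (h : Regular hν ω) (hα : IsWeight α) (a b : ℕ) :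
    |ov α a b ω| ≤ topVal hν α := by
  rw [← Real.norm_eq_abs]
  refine tsum_of_norm_bounded (hα.summable_term (diagVal hν)).hasSum fun g => ?_
  rw [Real.norm_eq_abs, abs_mul, abs_of_nonneg (hα.nonneg g),
    show kvec a b ω g = ω.2 g a b from rfl, h.clamp, clamp_diagVal]
  exact mul_le_mul_of_nonneg_left (h g a b).1 (hα.nonneg g)

lemma Regular.permRep_iff (h : Regular hν ω) (π : Equiv.Perm ℕ) : Regular hν (permRep π ω) :=
  fun g a b => h g (π a) (π b)

end Regular

lemma isWeight_kWeight : IsWeight kWeight where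
  nonneg g := by unfold kWeight; positivity
  summable := by
    unfold kWeight
    simp only [pow_succ]
    exact summable_geometric_two.mul_right _

lemma Regular.rbar_eq {ν : Measure Arr} {hν : IsGGArray ν} {ω : Arr} (h : Regular hν ω)
    (a b : ℕ) : rbar a b ω = ov kWeight a b ω := (h.ov_eq a b).symm

/-- The law of a combination of two replicas. -/
def ovLaw (ν : Measure Arr) (α : ℕ → ℝ) : Measure ℝ := ν.map (ov α 0 1)

lemma ovLaw_kWeight {ν : Measure Arr} (hν : IsGGArray ν) :
    ovLaw ν kWeight = overlapLaw ν := by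
  refine Measure.map_congr ?_
  filter_upwards [ae_regular hν] with ω hω
  exact (hω.rbar_eq 0 1).symm

lemma isProbability_ovLaw {ν : Measure Arr} (hν : IsGGArray ν) {α : ℕ → ℝ} (hα : IsWeight α) :
    IsProbabilityMeasure (ovLaw ν α) :=
  have := hν.prob
  Measure.isProbabilityMeasure_map (measurable_ov hα 0 1).aemeasurable

/-- The permutation of data induced by swapping `0` and `p`. -/
def swapData {n : ℕ} (p : Fin n) (z : RepData n) : RepData n :=
  (fun l => z.1 (Equiv.swap ⟨0, p.pos⟩ p l),
   fun g a b => z.2 g (Equiv.swap ⟨0, p.pos⟩ p a) (Equiv.swap ⟨0, p.pos⟩ p b))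

lemma measurable_swapData {n : ℕ} (p : Fin n) : Measurable (swapData p) := by
  refine Measurable.prodMk ?_ ?_
  · exact measurable_pi_lambda _ fun l => (measurable_pi_apply _).comp measurable_fst
  · exact measurable_pi_lambda _ fun g => measurable_pi_lambda _ fun a =>
      measurable_pi_lambda _ fun b => (measurable_pi_apply _).comp ((measurable_pi_apply _).comp
        ((measurable_pi_apply g).comp measurable_snd))

lemma val_swap {n : ℕ} (p q : Fin n) :
    ((Equiv.swap (⟨0, p.pos⟩ : Fin n) p q : Fin n) : ℕ) = Equiv.swap 0 (p : ℕ) (q : ℕ) := by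
  simp only [Equiv.swap_apply_def, Fin.ext_iff]
  split_ifs <;> rfl

lemma swapData_repData {n : ℕ} (p : Fin n) (ω : Arr) :
    swapData p (repData n ω) = repData n (permRep (Equiv.swap 0 (p : ℕ)) ω) := by
  simp [swapData, repData, permRep, val_swap]

/-- The GG identities for an arbitrary distinguished replica. -/
lemma gg_at {ν : Measure Arr} (hν : IsGGArray ν) {n p : ℕ} (hp : p < n) {F : RepData n → ℝ}
    {h : (ℕ → ℝ) → ℝ} (hF : Measurable F) (hh : Measurable h) (hFb : ∀ z, |F z| ≤ 1)
    (hhb : ∀ z, |h z| ≤ 1) :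
    (n : ℝ) * ∫ ω, F (repData n ω) * h (kvec p n ω) ∂ν =
      (∫ ω, F (repData n ω) ∂ν) * (∫ ω, h (kvec 0 1 ω) ∂ν) +
        ∑ l ∈ (Finset.range n).erase p, ∫ ω, F (repData n ω) * h (kvec p l ω) ∂ν := by
  set P : Fin n := ⟨p, hp⟩
  set π := Equiv.swap 0 p with hπdef
  have key := hν.gg n (by omega) (fun z => F (swapData P z)) h (hF.comp (measurable_swapData P))
    hh (fun z => hFb _) hhb
  have hmove : ∀ l, ∫ ω, F (swapData P (repData n ω)) * h (kvec 0 l ω) ∂ν =
      ∫ ω, F (repData n ω) * h (kvec p (π l) ω) ∂ν := by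
    intro l
    have hm : Measurable fun ω : Arr => F (repData n ω) * h (kvec p (π l) ω) :=
      (hF.comp (measurable_repData n)).mul (hh.comp (measurable_kvec p (π l)))
    rw [← integral_permRep hν π hm]
    refine integral_congr_ae (Eventually.of_forall fun ω => ?_)
    have hk : kvec p (π l) (permRep π ω) = kvec 0 l ω := by
      funext g
      simp [kvec, permRep, hπdef]
    simp only [swapData_repData, hk]
    rfl
  have hone : ∫ ω, F (swapData P (repData n ω)) ∂ν = ∫ ω, F (repData n ω) ∂ν := by
    refine Eq.trans ?_ (integral_permRep hν π (hF.comp (measurable_repData n)))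
    refine integral_congr_ae (Eventually.of_forall fun ω => ?_)
    simp only [swapData_repData, Function.comp]
    rfl
  rw [hone, hmove n] at key
  have hn : π n = n := Equiv.swap_apply_of_ne_of_ne (by omega) (by omega)
  rw [hn] at key
  rw [key]
  congr 1
  rw [Finset.sum_congr rfl fun l _ => hmove l]
  refine Finset.sum_nbij' π π ?_ ?_ ?_ ?_ ?_
  · intro l hl
    simp only [Finset.mem_Ico, Finset.mem_erase, Finset.mem_range, hπdef,
      Equiv.swap_apply_def] at *
    split_ifs <;> omega
  · intro l hl
    simp only [Finset.mem_Ico, Finset.mem_erase, Finset.mem_range, hπdef,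
      Equiv.swap_apply_def] at *
    split_ifs <;> omega
  · intro l _; simp [hπdef]
  · intro l _; simp [hπdef]
  · intro l _; rfl

/-- The GG identities in joint form. -/
lemma gg_joint {ν : Measure Arr} (hν : IsGGArray ν) {α : ℕ → ℝ} (hα : IsWeight α) {n p : ℕ}
    (hp : p < n) {Φ : RepData n × ℝ → ℝ} (hΦ : Measurable Φ) {C : ℝ} (hb : ∀ z, |Φ z| ≤ C) :
    (n : ℝ) * ∫ ω, Φ (repData n ω, ov α p n ω) ∂ν =
      ∫ ω, (∫ x, Φ (repData n ω, x) ∂ovLaw ν α) ∂ν +
        ∑ l ∈ (Finset.range n).erase p, ∫ ω, Φ (repData n ω, ov α p l ω) ∂ν := by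
  have := hν.prob
  have := isProbability_ovLaw hν hα
  set s := (Finset.range n).erase p with hs
  set f : ℕ → Arr → RepData n × ℝ := fun l ω => (repData n ω, ov α p l ω) with hfdef
  have hf : ∀ l, Measurable (f l) := fun l => (measurable_repData n).prodMk (measurable_ov hα p l)
  have hfin : ∀ l, IsFiniteMeasure (ν.map (f l)) := fun l => inferInstance
  have hmeas : (n : ℝ≥0) • ν.map (f n) =
      (ν.map (repData n)).prod (ovLaw ν α) + ∑ l ∈ s, ν.map (f l) := by
    refine Measure.ext_prod fun {A B} hA hB => ?_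
    have e := gg_at hν hp (F := A.indicator 1) (h := (comb α ⁻¹' B).indicator 1)
      (measurable_one.indicator hA) (measurable_one.indicator (hB.preimage (measurable_comb hα)))
      (fun z => by by_cases hz : z ∈ A <;> simp [hz])
      (fun z => by by_cases hz : z ∈ comb α ⁻¹' B <;> simp [hz])
    have hl : ∀ l, ∫ ω, A.indicator (1 : RepData n → ℝ) (repData n ω) *
        (comb α ⁻¹' B).indicator (1 : (ℕ → ℝ) → ℝ) (kvec p l ω) ∂ν =
          (ν.map (f l) (A ×ˢ B)).toReal := by
      intro l
      have : (fun ω => A.indicator (1 : RepData n → ℝ) (repData n ω) *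
          (comb α ⁻¹' B).indicator (1 : (ℕ → ℝ) → ℝ) (kvec p l ω))
          = (f l ⁻¹' (A ×ˢ B)).indicator 1 := by
        funext ω
        by_cases h1 : repData n ω ∈ A <;> by_cases h2 : ov α p l ω ∈ B <;>
          simp_all [f, Set.indicator, ov]
      rw [this, integral_indicator_one ((hA.prod hB).preimage (hf l)),
        Measure.map_apply (hf l) (hA.prod hB), measureReal_def]
    have hA1 : ∫ ω, A.indicator (1 : RepData n → ℝ) (repData n ω) ∂ν =
        (ν.map (repData n) A).toReal := by
      rw [Measure.map_apply (measurable_repData n) hA, ← measureReal_def,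
        ← integral_indicator_one (hA.preimage (measurable_repData n))]
      rfl
    have hB1 : ∫ ω, (comb α ⁻¹' B).indicator (1 : (ℕ → ℝ) → ℝ) (kvec 0 1 ω) ∂ν =
        (ovLaw ν α B).toReal := by
      rw [ovLaw, Measure.map_apply (measurable_ov hα 0 1) hB, ← measureReal_def,
        ← integral_indicator_one (hB.preimage (measurable_ov hα 0 1))]
      rfl
    rw [hl, hA1, hB1, Finset.sum_congr rfl fun l _ => hl l] at e
    rw [← ENNReal.toReal_eq_toReal_iff' (measure_ne_top _ _) (measure_ne_top _ _)]
    rw [Measure.smul_apply, Measure.add_apply, Measure.finsetSum_apply, Measure.prod_prod,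
      ENNReal.toReal_add (by simp [ENNReal.mul_ne_top, measure_ne_top])
        (by simp [measure_ne_top]),
      ENNReal.toReal_sum (fun l _ => measure_ne_top _ _), ENNReal.toReal_mul]
    simpa [ENNReal.smul_def] using e
  have hint : ∀ (μ : Measure (RepData n × ℝ)) [IsFiniteMeasure μ], Integrable Φ μ :=
    fun μ _ => integrable_of_abs_le hΦ hb
  have := congrArg (fun μ => ∫ z, Φ z ∂μ) hmeas
  rw [integral_smul_nnreal_measure, integral_add_measure (hint _) (hint _),
    integral_finsetSum_measure (fun l _ => hint _), integral_prod _ (hint _)] at this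
  rw [integral_map (hf n).aemeasurable hΦ.aestronglyMeasurable,
    integral_map (measurable_repData n).aemeasurable
      hΦ.stronglyMeasurable.integral_prod_right'.aestronglyMeasurable] at this
  simp only [integral_map (hf _).aemeasurable hΦ.aestronglyMeasurable] at this
  simpa [f, NNReal.smul_def] using this

end Vale.Agent.P168.Tree
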