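import Vale.Agent.P168.Tree.Ultra
import Vale.Agent.P168.Tree.Sites

/-! The fields of a tree array about the master overlap alone. -/

open MeasureTheory ProbabilityTheory Filter
open scoped BigOperators NNReal ENNReal

noncomputable section

namespace Vale.Agent.P168.Tree

variable {ν : Measure Arr}

/-- The diagonal value of the master overlap. -/
def rhoVal (hν : IsGGArray ν) : ℝ := topVal hν kWeight

lemma diagVal_zero (hν : IsGGArray ν) : diagVal hν 0 = 1 := by
  have := hν.prob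
  obtain ⟨ω, h1, h2⟩ := ((diagVal_spec hν 0 0).and (hν.overlap_zero 0 0)).exists
  rw [← h1, h2, rset]
  refine Tendsto.limsup_eq (tendsto_const_nhds.congr fun k => ?_)
  have : ∀ i, spinProd [0, 0] i ω = 1 := fun i => by
    cases hb : ω.1 0 i <;> simp [spinProd, spin, hb]
  simp [this]

lemma rho_pos (hν : IsGGArray ν) : 0 < rhoVal hν := by
  have h := (isWeight_kWeight.summable_term (diagVal hν))
  refine lt_of_lt_of_le (b := kWeight 0 * clampUnit (diagVal hν 0)) ?_
    (h.le_tsum 0 fun g _ => mul_nonneg (isWeight_kWeight.nonneg g) ?_)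
  · rw [clamp_diagVal, diagVal_zero, mul_one]
    norm_num [kWeight]
  · rw [clamp_diagVal]
    exact diagVal_nonneg hν g

lemma rbar_symm (hν : IsGGArray ν) (a b : ℕ) : ∀ᵐ ω ∂ν, rbar a b ω = rbar b a ω := by
  filter_upwards [ae_regular hν] with ω h
  rw [h.rbar_eq, h.rbar_eq, h.ov_symm]

lemma rbar_diag (hν : IsGGArray ν) (a : ℕ) : ∀ᵐ ω ∂ν, rbar a a ω = rhoVal hν := by
  filter_upwards [ae_regular hν] with ω h
  rw [h.rbar_eq, h.ov_diag, rhoVal]

lemma rbar_le (hν : IsGGArray ν) (a b : ℕ) : ∀ᵐ ω ∂ν, |rbar a b ω| ≤ rhoVal hν := by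
  filter_upwards [ae_regular hν] with ω h
  rw [h.rbar_eq]
  exact h.ov_abs_le isWeight_kWeight a b

lemma rbar_ultra (hν : IsGGArray ν) (a b c : ℕ) :
    ∀ᵐ ω ∂ν, min (rbar a b ω) (rbar b c ω) ≤ rbar a c ω := by
  filter_upwards [ae_regular hν, ov_ultra hν isWeight_kWeight a b c] with ω h h2
  rwa [h.rbar_eq, h.rbar_eq, h.rbar_eq]

lemma Regular.near_top_kernel {hν : IsGGArray ν} {ω : Arr} (h : Regular hν ω) {α : ℕ → ℝ}
    (hα : IsWeight α) (g a b : ℕ) :
    α g * (diagVal hν g - ω.2 g a b) ≤ topVal hν α - ov α a b ω := by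
  rw [topVal, ov, comb, comb, ← Summable.tsum_sub (hα.summable_term _) (hα.summable_term _)]
  refine le_trans ?_ (((hα.summable_term _).sub (hα.summable_term _)).le_tsum g fun j _ => ?_)
  · rw [clamp_diagVal, show kvec a b ω g = ω.2 g a b from rfl, h.clamp, mul_sub]
  · rw [clamp_diagVal, show kvec a b ω j = ω.2 j a b from rfl, h.clamp, ← mul_sub]
    exact mul_nonneg (hα.nonneg j) (sub_nonneg.2 ((le_abs_self _).trans (h j a b).1))

lemma near_top (hν : IsGGArray ν) (a b : ℕ) :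
    ∀ᵐ ω ∂ν, 1 - rset [a, b] ω ≤ 2 * (rhoVal hν - rbar a b ω) := by
  filter_upwards [ae_regular hν, hν.overlap_zero a b] with ω h h0
  have := h.near_top_kernel isWeight_kWeight 0 a b
  rw [diagVal_zero, h0] at this
  rw [h.rbar_eq, rhoVal]
  norm_num [kWeight] at this
  linarith

lemma gg_scalar (hν : IsGGArray ν) (n p : ℕ) (hp : p < n) (F : RepData n → ℝ) (h : ℝ → ℝ)
    (hF : Measurable F) (hh : Measurable h) (hFb : ∀ z, |F z| ≤ 1) (hhb : ∀ z, |h z| ≤ 1) :
    (n : ℝ) * ∫ ω, F (repData n ω) * h (rbar p n ω) ∂ν =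
      (∫ ω, F (repData n ω) ∂ν) * (∫ ω, h (rbar 0 1 ω) ∂ν) +
        ∑ l ∈ (Finset.range n).erase p, ∫ ω, F (repData n ω) * h (rbar p l ω) ∂ν := by
  have key := gg_at hν hp (F := F) (h := fun k => h (comb kWeight k)) hF
    (hh.comp (measurable_comb isWeight_kWeight)) hFb (fun z => hhb _)
  have e : ∀ a b, ∫ ω, F (repData n ω) * h (rbar a b ω) ∂ν =
      ∫ ω, F (repData n ω) * h (comb kWeight (kvec a b ω)) ∂ν := fun a b => by
    refine integral_congr_ae ?_
    filter_upwards [ae_regular hν] with ω hω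
    rw [hω.rbar_eq, ov]
  have e1 : ∫ ω, h (rbar 0 1 ω) ∂ν = ∫ ω, h (comb kWeight (kvec 0 1 ω)) ∂ν := by
    refine integral_congr_ae ?_
    filter_upwards [ae_regular hν] with ω hω
    rw [hω.rbar_eq, ov]
  rw [e1, e p n, key]
  simp only [e]

lemma site_factor (hν : IsGGArray ν) (n M : ℕ) (L : Fin M → List ℕ) (G : Mat n → ℝ)
    (hG : Measurable G) (hGb : ∀ T, |G T| ≤ 1) :
    ∫ ω, G (tmat (idRep n) ω) * ∏ i, spinProd (L i) i ω ∂ν =
      ∫ ω, G (tmat (idRep n) ω) * ∏ i, rset (L i) ω ∂ν := by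
  set G' : Arr → ℝ := fun ω => G fun a b => ov kWeight (a : ℕ) b ω
  have hm : Measurable G' := hG.comp (measurable_pi_lambda _ fun a => measurable_pi_lambda _
    fun b => measurable_ov isWeight_kWeight a b)
  have e : ∀ᵐ ω ∂ν, G (tmat (idRep n) ω) = G' ω := by
    filter_upwards [ae_regular hν] with ω hω
    refine congrArg G (funext fun a => funext fun b => ?_)
    exact hω.rbar_eq a b
  have h := site_factor_of_invariant hν L hm (fun π ω => rfl) (fun ω => hGb _)
  calc ∫ ω, G (tmat (idRep n) ω) * ∏ i, spinProd (L i) i ω ∂ν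
      = ∫ ω, G' ω * ∏ i, spinProd (L i) i ω ∂ν :=
        integral_congr_ae (by filter_upwards [e] with ω hω; rw [hω])
    _ = ∫ ω, G' ω * ∏ i, rset (L i) ω ∂ν := h
    _ = _ := integral_congr_ae (by filter_upwards [e] with ω hω; rw [hω])

end Vale.Agent.P168.Tree
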