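import Vale.Agent.P168.Tree.Split

/-! The law of a new replica given the tree of finitely many replicas. -/

open MeasureTheory ProbabilityTheory Filter
open scoped BigOperators NNReal ENNReal

noncomputable section

namespace Vale.Agent.P168.Tree

variable {ν : Measure Arr}

lemma measurable_rbar (a b : ℕ) : Measurable (rbar a b) :=
  Measurable.tsum fun g => (measurable_kernel g a b).const_mul _

lemma measurable_tmat {s : ℕ} (u : Fin s → ℕ) : Measurable (tmat u) :=
  measurable_pi_lambda _ fun a => measurable_pi_lambda _ fun b => measurable_rbar (u a) (u b)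

/-- The overlap matrix read from the data. -/
def tmatD {n s : ℕ} (u : Fin s → Fin n) (z : RepData n) : Mat s := fun a b =>
  ∑' g, kWeight g * z.2 g (u a) (u b)

lemma tmatD_repData {n s : ℕ} (u : Fin s → Fin n) (ω : Arr) :
    tmatD u (repData n ω) = tmat (fun i => (u i : ℕ)) ω := rfl

lemma measurable_tmatD {n s : ℕ} (u : Fin s → Fin n) : Measurable (tmatD u) :=
  measurable_pi_lambda _ fun a => measurable_pi_lambda _ fun b =>
    Measurable.tsum fun g => by
      have h : Measurable fun z : RepData n => z.2 g (u a) (u b) :=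
        (measurable_pi_apply (u b)).comp ((measurable_pi_apply (u a)).comp
          ((measurable_pi_apply g).comp measurable_snd))
      exact h.const_mul _

/-- The almost sure properties of the master overlap. -/
structure Good (ρ : ℝ) (ω : Arr) : Prop where
  symm : ∀ a b, rbar a b ω = rbar b a ω
  diag : ∀ a, rbar a a ω = ρ
  le : ∀ a b, rbar a b ω ≤ ρ
  ultra : ∀ a b c, min (rbar a b ω) (rbar b c ω) ≤ rbar a c ω

lemma ae_good (hν : IsGGArray ν) : ∀ᵐ ω ∂ν, Good (rhoVal hν) ω := by
  filter_upwards [ae_all_iff.2 fun a => ae_all_iff.2 (rbar_symm hν a),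
    ae_all_iff.2 (rbar_diag hν), ae_all_iff.2 fun a => ae_all_iff.2 (rbar_le hν a),
    ae_all_iff.2 fun a => ae_all_iff.2 fun b => ae_all_iff.2 (rbar_ultra hν a b)]
    with ω h1 h2 h3 h4
  exact ⟨h1, h2, fun a b => (le_abs_self _).trans (h3 a b), h4⟩

lemma Good.compat {ρ : ℝ} {ω : Arr} (h : Good ρ ω) {s : ℕ} (u : Fin s → ℕ) (q : ℕ) :
    Compat (tmat u ω) fun l => rbar (u l) q ω where
  symm a b := h.symm _ _
  ultra a b c := h.ultra _ _ _
  row a b := by
    have := h.ultra (u b) (u a) q
    rw [h.symm (u b) (u a), min_comm] at this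
    exact this
  pair a b := by
    have := h.ultra (u a) q (u b)
    rw [h.symm q (u b)] at this
    exact this

lemma Good.tmat_snoc {ρ : ℝ} {ω : Arr} (h : Good ρ ω) {s : ℕ} (u : Fin s → ℕ) (q : ℕ) :
    tmat (Fin.snoc u q) ω = snocMat ρ (tmat u ω) fun l => rbar (u l) q ω := by
  funext a b
  induction a using Fin.lastCases with
  | last =>
    induction b using Fin.lastCases with
    | last => simp [tmat, snocMat, h.diag]
    | cast b => simp [tmat, snocMat, h.symm q]
  | cast a =>
    induction b using Fin.lastCases with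
    | last => simp [tmat, snocMat]
    | cast b => simp [tmat, snocMat]

lemma isProbability_overlapLaw (hν : IsGGArray ν) : IsProbabilityMeasure (overlapLaw ν) :=
  ovLaw_kWeight hν ▸ isProbability_ovLaw hν isWeight_kWeight

lemma overlapLaw_le (hν : IsGGArray ν) : ∀ᵐ x ∂overlapLaw ν, x ≤ rhoVal hν :=
  (ae_map_iff (measurable_rbar 0 1).aemeasurable
    (measurableSet_le measurable_id measurable_const)).2 <| by
    filter_upwards [rbar_le hν 0 1] with ω h using (le_abs_self _).trans h

/-- The GG identities in joint form for the master overlap. -/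
lemma gg_rbar (hν : IsGGArray ν) {n p : ℕ} (hp : p < n) {Φ : RepData n × ℝ → ℝ}
    (hΦ : Measurable Φ) {C : ℝ} (hb : ∀ z, |Φ z| ≤ C) :
    (n : ℝ) * ∫ ω, Φ (repData n ω, rbar p n ω) ∂ν =
      (∫ ω, ((∫ x, Φ (repData n ω, x) ∂overlapLaw ν) - Φ (repData n ω, rhoVal hν)) ∂ν) +
        ∑ q ∈ Finset.range n, ∫ ω, Φ (repData n ω, rbar p q ω) ∂ν := by
  have := hν.prob
  have := isProbability_overlapLaw hν
  have e : ∀ q, ∫ ω, Φ (repData n ω, rbar p q ω) ∂ν =
      ∫ ω, Φ (repData n ω, ov kWeight p q ω) ∂ν := fun q => by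
    refine integral_congr_ae ?_
    filter_upwards [ae_regular hν] with ω h
    rw [h.rbar_eq]
  have key := gg_joint hν isWeight_kWeight hp hΦ hb
  rw [ovLaw_kWeight hν] at key
  simp only [← e] at key
  rw [key, integral_sub]
  · rw [← Finset.sum_erase_add _ _ (Finset.mem_range.2 hp),
      show ∫ ω, Φ (repData n ω, rbar p p ω) ∂ν = ∫ ω, Φ (repData n ω, rhoVal hν) ∂ν from
        integral_congr_ae (by filter_upwards [rbar_diag hν p] with ω h; rw [h])]
    ring
  · refine integrable_of_abs_le (C := C)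
      (hΦ.stronglyMeasurable.integral_prod_right'.measurable.comp (measurable_repData n))
      fun ω => ?_
    have h := norm_integral_le_of_norm_le_const (μ := overlapLaw ν)
      (f := fun x => Φ (repData n ω, x)) (C := C)
      (Eventually.of_forall fun x => (Real.norm_eq_abs _).trans_le (hb _))
    simpa using h
  · exact integrable_of_abs_le (hΦ.comp ((measurable_repData n).prodMk measurable_const))
      fun ω => hb _

/-- The function of a row defined by a function of the extended matrix. -/
def rowFun {s : ℕ} (ρ : ℝ) (G : Mat (s + 1) → ℝ) : Mat s → (Fin s → ℝ) → ℝ :=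
  fun T x => G (snocMat ρ T x)

lemma measurable_rowFun {s : ℕ} (ρ : ℝ) {G : Mat (s + 1) → ℝ} (hG : Measurable G) :
    Measurable (Function.uncurry (rowFun ρ G)) :=
  hG.comp (measurable_snocMat ρ)

/-- The correction term of the location formula. -/
def lamFun {s : ℕ} (ρ : ℝ) (μ : Measure ℝ) (G : Mat (s + 1) → ℝ) (T : Mat s) : ℝ :=
  ∑ l, (part (rowFun ρ G) T l ρ - ∫ v, part (rowFun ρ G) T l v ∂μ)

lemma measurable_lamFun {s : ℕ} (ρ : ℝ) (μ : Measure ℝ) [SFinite μ] {G : Mat (s + 1) → ℝ}
    (hG : Measurable G) : Measurable (lamFun ρ μ G) :=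
  Finset.measurable_sum _ fun l _ =>
    ((measurable_part (measurable_rowFun ρ hG) l).comp (measurable_id.prodMk measurable_const)).sub
      (measurable_part (measurable_rowFun ρ hG) l).stronglyMeasurable.integral_prod_right'.measurable

lemma abs_lamFun_le {s : ℕ} (ρ : ℝ) (μ : Measure ℝ) [IsProbabilityMeasure μ]
    {G : Mat (s + 1) → ℝ} (hGb : ∀ T, |G T| ≤ 1) (T : Mat s) :
    |lamFun ρ μ G T| ≤ 4 * s := by
  calc |lamFun ρ μ G T| ≤ ∑ _l : Fin s, (4 : ℝ) := by
        refine (Finset.abs_sum_le_sum_abs _ _).trans (Finset.sum_le_sum fun l _ => ?_)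
        have h := norm_integral_le_of_norm_le_const (μ := μ)
          (f := fun v => part (rowFun ρ G) T l v) (C := 2)
          (Eventually.of_forall fun v => (Real.norm_eq_abs _).trans_le
            (abs_part_le (fun _ _ => hGb _) T l v))
        have h1 : |part (rowFun ρ G) T l ρ| ≤ 2 := abs_part_le (fun _ _ => hGb _) T l ρ
        simp only [Real.norm_eq_abs, probReal_univ, mul_one] at h
        exact (abs_sub _ _).trans (by linarith)
    _ = 4 * s := by simp [mul_comm]

/-- The location formula, with an explicit correction term. -/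
lemma location_eq (hν : IsGGArray ν) {s : ℕ} {G : Mat (s + 1) → ℝ} (hG : Measurable G)
    (hGb : ∀ T, |G T| ≤ 1) {n : ℕ} {u : Fin s → ℕ} (hu : ∀ i, u i < n) {F : RepData n → ℝ}
    (hF : Measurable F) (hFb : ∀ z, |F z| ≤ 1) :
    (n : ℝ) * ∫ ω, F (repData n ω) * G (tmat (Fin.snoc u n) ω) ∂ν =
      (∑ q ∈ Finset.range n, ∫ ω, F (repData n ω) * G (tmat (Fin.snoc u q) ω) ∂ν) -
        ∫ ω, F (repData n ω) * lamFun (rhoVal hν) (overlapLaw ν) G (tmat u ω) ∂ν := by
  have := hν.prob
  have := isProbability_overlapLaw hν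
  set ρ := rhoVal hν
  set μ := overlapLaw ν
  rcases Nat.eq_zero_or_pos s with rfl | hs
  · have e : ∀ q, ∫ ω, F (repData n ω) * G (tmat (Fin.snoc u q) ω) ∂ν =
        ∫ ω, F (repData n ω) * G (fun _ _ => ρ) ∂ν := fun q => by
      refine integral_congr_ae ?_
      filter_upwards [ae_good hν] with ω h
      congr 2
      funext a b
      obtain rfl : a = Fin.last 0 := Fin.fin_one_eq_zero a
      obtain rfl : b = Fin.last 0 := Fin.fin_one_eq_zero b
      simp [tmat, h.diag, ρ]
    simp only [e, lamFun, Finset.univ_eq_empty, Finset.sum_empty, mul_zero, integral_zero,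
      sub_zero, Finset.sum_const, Finset.card_range, nsmul_eq_mul]
  set g := rowFun ρ G
  set w : Fin s → Fin n := fun i => ⟨u i, hu i⟩
  set Φ : Fin s → RepData n × ℝ → ℝ := fun l z => F z.1 * part g (tmatD w z.1) l z.2
  have hΦ : ∀ l, Measurable (Φ l) := fun l => (hF.comp measurable_fst).mul
    ((measurable_part (measurable_rowFun ρ hG) l).comp
      (((measurable_tmatD w).comp measurable_fst).prodMk measurable_snd))
  have hΦb : ∀ l z, |Φ l z| ≤ 2 := fun l z => by
    rw [abs_mul]
    exact (mul_le_mul (hFb _) (abs_part_le (fun _ _ => hGb _) _ l _) (abs_nonneg _)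
      zero_le_one).trans_eq (one_mul 2)
  have hsplit : ∀ q, ∫ ω, F (repData n ω) * G (tmat (Fin.snoc u q) ω) ∂ν =
      ∑ l, ∫ ω, Φ l (repData n ω, rbar (u l) q ω) ∂ν := by
    intro q
    rw [← integral_finsetSum _ fun l _ => integrable_of_abs_le (f := fun ω =>
      Φ l (repData n ω, rbar (u l) q ω))
      ((hΦ l).comp ((measurable_repData n).prodMk (measurable_rbar _ _))) fun ω => hΦb l _]
    refine integral_congr_ae ?_
    filter_upwards [ae_good hν] with ω h
    rw [h.tmat_snoc u q]
    show F _ * g (tmat u ω) _ = _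
    rw [← (h.compat u q).eq_sum_part hs g, Finset.mul_sum]
    rfl
  have hint : ∀ l, Integrable
      (fun ω => (∫ x, Φ l (repData n ω, x) ∂μ) - Φ l (repData n ω, ρ)) ν := fun l =>
    integrable_of_abs_le (C := 2 + 2)
      (((hΦ l).stronglyMeasurable.integral_prod_right'.measurable.comp (measurable_repData n)).sub
        ((hΦ l).comp ((measurable_repData n).prodMk measurable_const)))
      fun ω => (abs_sub _ _).trans (add_le_add (by
        simpa using norm_integral_le_of_norm_le_const (μ := μ) (C := 2)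
          (f := fun x => Φ l (repData n ω, x))
          (Eventually.of_forall fun x => (Real.norm_eq_abs _).trans_le (hΦb l _))) (hΦb l _))
  simp only [hsplit]
  rw [Finset.mul_sum, Finset.sum_congr rfl fun l _ => gg_rbar hν (hu l) (hΦ l) (hΦb l),
    Finset.sum_add_distrib, Finset.sum_comm (s := Finset.univ), ← integral_finsetSum _ fun l _ =>
      hint l]
  have e : (fun ω => ∑ l, ((∫ x, Φ l (repData n ω, x) ∂μ) - Φ l (repData n ω, ρ))) =
      fun ω => -(F (repData n ω) * lamFun ρ μ G (tmat u ω)) := by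
    funext ω
    rw [lamFun, Finset.mul_sum, ← Finset.sum_neg_distrib]
    refine Finset.sum_congr rfl fun l _ => ?_
    simp only [Φ]
    rw [integral_const_mul]
    show _ = -(F _ * (part g (tmatD w (repData n ω)) l ρ -
      ∫ v, part g (tmatD w (repData n ω)) l v ∂μ))
    ring
  rw [e, integral_neg]
  ring

lemma location (hν : IsGGArray ν) (s : ℕ) (G : Mat (s + 1) → ℝ) (hG : Measurable G)
    (hGb : ∀ T, |G T| ≤ 1) :
    ∃ Lam : Mat s → ℝ, Measurable Lam ∧ (∃ C, ∀ T, |Lam T| ≤ C) ∧
      ∀ (n : ℕ) (u : Fin s → ℕ), 1 ≤ n → (∀ i, u i < n) → ∀ F : RepData n → ℝ,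
        Measurable F → (∀ z, |F z| ≤ 1) →
        (n : ℝ) * ∫ ω, F (repData n ω) * G (tmat (Fin.snoc u n) ω) ∂ν =
          (∑ q ∈ Finset.range n, ∫ ω, F (repData n ω) * G (tmat (Fin.snoc u q) ω) ∂ν) -
            ∫ ω, F (repData n ω) * Lam (tmat u ω) ∂ν :=
  have := isProbability_overlapLaw hν
  ⟨lamFun (rhoVal hν) (overlapLaw ν) G, measurable_lamFun _ _ hG,
    ⟨_, abs_lamFun_le _ _ hGb⟩, fun _ _ _ hu _ hF hFb => location_eq hν hG hGb hu hF hFb⟩

end Vale.Agent.P168.Tree
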