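import Vale.Agent.P168.Tree.Sync

/-! A function of a new row of an ultrametric matrix splits into functions of single entries. -/

open MeasureTheory ProbabilityTheory Filter
open scoped BigOperators NNReal ENNReal

noncomputable section

namespace Vale.Agent.P168.Tree

variable {s : ℕ}

/-- The matrix `T` extended by the row and column `x`, with corner `ρ`. -/
def snocMat (ρ : ℝ) (T : Mat s) (x : Fin s → ℝ) : Mat (s + 1) := fun a b =>
  Fin.lastCases (motive := fun _ => ℝ) (Fin.lastCases (motive := fun _ => ℝ) ρ x b)
    (fun a' => Fin.lastCases (motive := fun _ => ℝ) (x a') (T a') b) a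

lemma measurable_snocMat (ρ : ℝ) :
    Measurable fun z : Mat s × (Fin s → ℝ) => snocMat ρ z.1 z.2 := by
  refine measurable_pi_lambda _ fun a => measurable_pi_lambda _ fun b => ?_
  induction a using Fin.lastCases with
  | last =>
    induction b using Fin.lastCases with
    | last => simp [snocMat]
    | cast b =>
      simp only [snocMat, Fin.lastCases_last, Fin.lastCases_castSucc]
      exact (measurable_pi_apply b).comp measurable_snd
  | cast a =>
    induction b using Fin.lastCases with
    | last =>
      simp only [snocMat, Fin.lastCases_last, Fin.lastCases_castSucc]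
      exact (measurable_pi_apply a).comp measurable_snd
    | cast b =>
      simp only [snocMat, Fin.lastCases_castSucc]
      exact (measurable_pi_apply b).comp ((measurable_pi_apply a).comp measurable_fst)

/-- The row of a leaf attached to `l` at level `v`. -/
def ray (T : Mat s) (l : Fin s) (v : ℝ) : Fin s → ℝ := fun k => min v (T l k)

lemma measurable_ray (l : Fin s) : Measurable fun z : Mat s × ℝ => ray z.1 l z.2 :=
  measurable_pi_lambda _ fun k => measurable_snd.min
    ((measurable_pi_apply k).comp ((measurable_pi_apply l).comp measurable_fst))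

/-- The contribution of entry `l`. -/
def part (g : Mat s → (Fin s → ℝ) → ℝ) (T : Mat s) (l : Fin s) (v : ℝ) : ℝ :=
  if h : (Finset.Iio l).Nonempty then
    g T (ray T l v) - g T (ray T l (min v ((Finset.Iio l).sup' h (T l))))
  else g T (ray T l v)

lemma measurable_part {g : Mat s → (Fin s → ℝ) → ℝ} (hg : Measurable (Function.uncurry g))
    (l : Fin s) : Measurable fun z : Mat s × ℝ => part g z.1 l z.2 := by
  have hray : ∀ {φ : Mat s × ℝ → ℝ}, Measurable φ →
      Measurable fun z : Mat s × ℝ => g z.1 (ray z.1 l (φ z)) := fun hφ =>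
    hg.comp (measurable_fst.prodMk ((measurable_ray l).comp (measurable_fst.prodMk hφ)))
  unfold part
  split_ifs with h
  · refine (hray measurable_snd).sub (hray (measurable_snd.min ?_))
    have e : (fun z : Mat s × ℝ => (Finset.Iio l).sup' h (z.1 l)) =
        (Finset.Iio l).sup' h fun k (z : Mat s × ℝ) => z.1 l k := by
      funext z
      exact (Finset.sup'_apply h (fun k (z : Mat s × ℝ) => z.1 l k) z).symm
    rw [e]
    exact Finset.measurable_sup' h fun k _ =>
      (measurable_pi_apply k).comp ((measurable_pi_apply l).comp measurable_fst)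
  · exact hray measurable_snd

lemma abs_part_le {g : Mat s → (Fin s → ℝ) → ℝ} (hg : ∀ T x, |g T x| ≤ 1) (T : Mat s) (l : Fin s)
    (v : ℝ) : |part g T l v| ≤ 2 := by
  unfold part
  split_ifs with h
  · exact (abs_sub _ _).trans ((add_le_add (hg _ _) (hg _ _)).trans (by norm_num))
  · exact (hg _ _).trans (by norm_num)

/-- An ultrametric symmetric matrix with a further compatible row. -/
structure Compat (T : Mat s) (x : Fin s → ℝ) : Prop where
  symm : ∀ a b, T a b = T b a
  ultra : ∀ a b c, min (T a b) (T b c) ≤ T a c
  row : ∀ a b, min (x a) (T a b) ≤ x b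
  pair : ∀ a b, min (x a) (x b) ≤ T a b

lemma Compat.ray_eq {T : Mat s} {x : Fin s → ℝ} (h : Compat T x) {a b : Fin s} {v : ℝ}
    (hv : v ≤ T a b) : ray T a v = ray T b v := by
  funext k
  simp only [ray]
  refine le_antisymm (le_min (min_le_left _ _) ?_) (le_min (min_le_left _ _) ?_)
  · exact le_trans (le_min (le_trans (min_le_left _ _) (hv.trans_eq (h.symm a b))) (min_le_right _ _))
      (h.ultra b a k)
  · exact le_trans (le_min (le_trans (min_le_left _ _) hv) (min_le_right _ _)) (h.ultra a b k)

lemma Compat.sum_part {T : Mat s} {x : Fin s → ℝ} (h : Compat T x)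
    (g : Mat s → (Fin s → ℝ) → ℝ) (j : ℕ) :
    ∀ a : Fin s, (a : ℕ) < j → (∀ k : Fin s, (k : ℕ) < j → x k ≤ x a) →
      ∑ l ∈ Finset.univ.filter (fun l : Fin s => (l : ℕ) < j), part g T l (x l) =
        g T (ray T a (x a)) := by
  induction j with
  | zero => intro a ha; omega
  | succ j ih =>
    intro a ha hmax
    rcases lt_or_ge j s with hj | hj
    swap
    · have hlt : ∀ k : Fin s, (k : ℕ) < j := fun k => lt_of_lt_of_le k.isLt hj
      rw [Finset.filter_true_of_mem fun k _ => Nat.lt_succ_of_lt (hlt k)]
      have := ih a (hlt a) fun k hk => hmax k (Nat.lt_succ_of_lt hk)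
      rwa [Finset.filter_true_of_mem fun k _ => hlt k] at this
    set l : Fin s := ⟨j, hj⟩
    have hins : Finset.univ.filter (fun k : Fin s => (k : ℕ) < j + 1) =
        insert l (Finset.univ.filter fun k : Fin s => (k : ℕ) < j) := by
      ext k
      simp [l, Fin.ext_iff]
      omega
    rw [hins, Finset.sum_insert (by simp [l])]
    rcases Nat.eq_zero_or_pos j with hj0 | hj0
    · have hal : a = l := Fin.ext (by simp [l]; omega)
      have he : ¬(Finset.Iio l).Nonempty := by
        rintro ⟨k, hk⟩
        rw [Finset.mem_Iio, Fin.lt_def] at hk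
        simp [l] at hk
        omega
      rw [part, dif_neg he, Finset.sum_eq_zero (fun k hk => by
        simp at hk; omega), add_zero, hal]
    have hne : (Finset.Iio l).Nonempty :=
      ⟨⟨0, by omega⟩, Finset.mem_Iio.2 (by simp [l, Fin.lt_def, hj0])⟩
    obtain ⟨b, hb, hbmax⟩ := Finset.exists_max_image (Finset.Iio l) x hne
    have hbj : (b : ℕ) < j := by simpa [l, Fin.lt_def] using hb
    have hmem : ∀ k : Fin s, (k : ℕ) < j → k ∈ Finset.Iio l := fun k hk => by
      simpa [l, Fin.lt_def] using hk
    rw [ih b hbj fun k hk => hbmax k (hmem k hk), part, dif_pos hne]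
    set m := (Finset.Iio l).sup' hne (T l) with hm
    obtain ⟨k₀, hk₀, hk₀'⟩ := Finset.exists_mem_eq_sup' hne (T l)
    rw [← hm] at hk₀'
    rcases le_or_gt (x l) m with hle | hgt
    · rw [min_eq_left hle, sub_self, zero_add]
      have hlb : x l ≤ x b := by
        refine le_trans ?_ (hbmax k₀ hk₀)
        exact le_trans (le_min le_rfl (hle.trans_eq hk₀')) (h.row l k₀)
      have hab : x a = x b := by
        refine le_antisymm ?_ (hmax b (by omega))
        rcases lt_or_ge (a : ℕ) j with haj | haj
        · exact hbmax a (hmem a haj)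
        · rw [show a = l from Fin.ext (by simp [l]; omega)]
          exact hlb
      rw [hab]
      refine congrArg (g T) (h.ray_eq ?_)
      have := h.pair b a
      rwa [hab, min_self] at this
    · have hk : ∀ k ∈ Finset.Iio l, x k = T l k := by
        intro k hk
        have h1 : T l k ≤ m := Finset.le_sup' (T l) hk
        refine le_antisymm ?_ ?_
        · rcases min_le_iff.1 (h.pair l k) with h2 | h2
          · linarith
          · exact h2
        · have := h.row l k
          rwa [min_eq_right (by linarith)] at this
      have hbm : x b = m := le_antisymm ((hk b hb).trans_le (Finset.le_sup' (T l) hb))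
        (hk₀'.trans_le ((hk k₀ hk₀).symm.trans_le (hbmax k₀ hk₀)))
      have hal : a = l := by
        rcases lt_or_ge (a : ℕ) j with haj | haj
        · have := hmax l (by simp [l])
          have := hbmax a (hmem a haj)
          linarith
        · exact Fin.ext (by simp [l]; omega)
      rw [min_eq_right hgt.le, hbm, hal]
      have : ray T l m = ray T b m := h.ray_eq (by rw [← hbm, hk b hb])
      rw [this]
      ring

/-- The splitting. -/
lemma Compat.eq_sum_part {T : Mat s} {x : Fin s → ℝ} (h : Compat T x) (hs : 0 < s)
    (g : Mat s → (Fin s → ℝ) → ℝ) : ∑ l, part g T l (x l) = g T x := by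
  obtain ⟨a, -, ha⟩ := Finset.exists_max_image (Finset.univ : Finset (Fin s)) x
    ⟨⟨0, hs⟩, Finset.mem_univ _⟩
  have := h.sum_part g s a a.isLt fun k _ => ha k (Finset.mem_univ _)
  rw [Finset.filter_true_of_mem fun k _ => k.isLt] at this
  rw [this]
  congr 1
  funext k
  simp only [ray]
  refine le_antisymm (h.row a k) (le_min (ha k (Finset.mem_univ _)) ?_)
  have := h.pair a k
  rwa [min_eq_right (ha k (Finset.mem_univ _))] at this

end Vale.Agent.P168.Tree
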