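import Vale.Agent.P168.Tree.Fields

/-! Synchronisation of the kernels with the master overlap. -/

open MeasureTheory ProbabilityTheory Filter
open scoped BigOperators NNReal ENNReal

noncomputable section

namespace Vale.Agent.P168.Tree

variable {ν : Measure Arr}

lemma isWeight_add {α β : ℕ → ℝ} (hα : IsWeight α) (hβ : IsWeight β) :
    IsWeight fun g => α g + β g :=
  ⟨fun g => add_nonneg (hα.nonneg g) (hβ.nonneg g), hα.summable.add hβ.summable⟩

lemma ov_add {α β : ℕ → ℝ} (hα : IsWeight α) (hβ : IsWeight β) (a b : ℕ) (ω : Arr) :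
    ov (fun g => α g + β g) a b ω = ov α a b ω + ov β a b ω := by
  simp only [ov, comb, add_mul]
  exact (hα.summable_term _).tsum_add (hβ.summable_term _)

/-- The joint law of two combinations of two replicas. -/
def pairLaw (ν : Measure Arr) (α β : ℕ → ℝ) : Measure (ℝ × ℝ) :=
  ν.map fun ω => (ov α 0 1 ω, ov β 0 1 ω)

lemma measurable_pair {α β : ℕ → ℝ} (hα : IsWeight α) (hβ : IsWeight β) (a b : ℕ) :
    Measurable fun ω => (ov α a b ω, ov β a b ω) :=
  (measurable_ov hα a b).prodMk (measurable_ov hβ a b)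

lemma boxes_null (hν : IsGGArray ν) {α β : ℕ → ℝ} (hα : IsWeight α) (hβ : IsWeight β) (q r : ℝ) :
    pairLaw ν α β (Set.Iio q ×ˢ Set.Ioi r) = 0 ∨ pairLaw ν α β (Set.Ioi q ×ˢ Set.Iio r) = 0 := by
  have := hν.prob
  set A := Set.Iio q ×ˢ Set.Ioi r
  set B := Set.Ioi q ×ˢ Set.Iio r
  have hA : MeasurableSet A := measurableSet_Iio.prod measurableSet_Ioi
  have hB : MeasurableSet B := measurableSet_Ioi.prod measurableSet_Iio
  set v : ℕ → ℕ → Arr → ℝ × ℝ := fun a b ω => (ov α a b ω, ov β a b ω)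
  have hv : ∀ a b, Measurable (v a b) := measurable_pair hα hβ
  set k : (ℕ → ℝ) → ℝ × ℝ := fun z => (comb α z, comb β z)
  have hk : Measurable k := (measurable_comb hα).prodMk (measurable_comb hβ)
  have key := gg_at hν (n := 2) (p := 0) (by norm_num)
    (F := fun z => A.indicator (1 : ℝ × ℝ → ℝ) (ovD α 0 1 z, ovD β 0 1 z))
    (h := fun z => B.indicator (1 : ℝ × ℝ → ℝ) (k z))
    ((measurable_one.indicator hA).comp ((measurable_ovD hα 0 1).prodMk (measurable_ovD hβ 0 1)))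
    ((measurable_one.indicator hB).comp hk)
    (fun z => abs_indicator_one_le _ _) (fun z => abs_indicator_one_le _ _)
  have e1 : ∫ ω, A.indicator (1 : ℝ × ℝ → ℝ) (v 0 1 ω) ∂ν = (pairLaw ν α β A).toReal := by
    rw [pairLaw, Measure.map_apply (hv 0 1) hA, ← measureReal_def,
      ← integral_indicator_one (hA.preimage (hv 0 1))]
    rfl
  have e2 : ∫ ω, B.indicator (1 : ℝ × ℝ → ℝ) (v 0 1 ω) ∂ν = (pairLaw ν α β B).toReal := by
    rw [pairLaw, Measure.map_apply (hv 0 1) hB, ← measureReal_def,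
      ← integral_indicator_one (hB.preimage (hv 0 1))]
    rfl
  have hzero : ∀ᵐ ω ∂ν, A.indicator (1 : ℝ × ℝ → ℝ) (v 0 1 ω) *
      B.indicator (1 : ℝ × ℝ → ℝ) (v 0 2 ω) = 0 := by
    have hαβ := isWeight_add hα hβ
    filter_upwards [ae_regular hν, ov_ultra hν hα 1 0 2, ov_ultra hν hα 0 2 1,
      ov_ultra hν hβ 1 0 2, ov_ultra hν hβ 0 1 2, ov_ultra hν hαβ 1 0 2]
      with ω hreg u1 u2 u3 u4 u5
    by_cases ha : v 0 1 ω ∈ A
    swap; · simp [ha]
    by_cases hb : v 0 2 ω ∈ B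
    swap; · simp [hb]
    exfalso
    obtain ⟨a1, a2⟩ := Set.mem_prod.1 ha
    obtain ⟨b1, b2⟩ := Set.mem_prod.1 hb
    simp only [v, Set.mem_Iio, Set.mem_Ioi] at a1 a2 b1 b2
    rw [hreg.ov_symm 1 0] at u1 u3 u5
    rw [hreg.ov_symm 2 1] at u2
    simp only [ov_add hα hβ] at u5
    rw [min_le_iff] at u1 u2 u3 u4 u5
    rcases u1 with u1 | u1 <;> rcases u2 with u2 | u2 <;> rcases u3 with u3 | u3 <;>
      rcases u4 with u4 | u4 <;> rcases u5 with u5 | u5 <;> linarith
  have e3 : ∫ ω, A.indicator (1 : ℝ × ℝ → ℝ) (v 0 1 ω) *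
      B.indicator (1 : ℝ × ℝ → ℝ) (v 0 2 ω) ∂ν = 0 := integral_eq_zero_of_ae hzero
  have e4 : ∫ ω, A.indicator (1 : ℝ × ℝ → ℝ) (v 0 1 ω) *
      B.indicator (1 : ℝ × ℝ → ℝ) (v 0 1 ω) ∂ν = 0 := by
    refine integral_eq_zero_of_ae (Eventually.of_forall fun ω => ?_)
    by_cases ha : v 0 1 ω ∈ A
    · have hb : v 0 1 ω ∉ B := fun hb => lt_asymm (Set.mem_Iio.1 (Set.mem_prod.1 ha).1) (Set.mem_Ioi.1 (Set.mem_prod.1 hb).1)
      simp [hb]
    · simp [ha]
  have hr : (Finset.range 2).erase 0 = {1} := by decide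
  rw [hr, Finset.sum_singleton] at key
  change ((2 : ℕ) : ℝ) * (∫ ω, A.indicator (1 : ℝ × ℝ → ℝ) (v 0 1 ω) *
      B.indicator (1 : ℝ × ℝ → ℝ) (v 0 2 ω) ∂ν) =
    (∫ ω, A.indicator (1 : ℝ × ℝ → ℝ) (v 0 1 ω) ∂ν) *
      (∫ ω, B.indicator (1 : ℝ × ℝ → ℝ) (v 0 1 ω) ∂ν) +
      ∫ ω, A.indicator (1 : ℝ × ℝ → ℝ) (v 0 1 ω) *
        B.indicator (1 : ℝ × ℝ → ℝ) (v 0 1 ω) ∂ν at key
  have : IsProbabilityMeasure (pairLaw ν α β) :=
    Measure.isProbabilityMeasure_map (hv 0 1).aemeasurable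
  rw [e1, e2, e3, e4, mul_zero, add_zero] at key
  rcases mul_eq_zero.1 key.symm with h | h
  · exact Or.inl ((ENNReal.toReal_eq_zero_iff _).1 h |>.resolve_right (measure_ne_top _ _))
  · exact Or.inr ((ENNReal.toReal_eq_zero_iff _).1 h |>.resolve_right (measure_ne_top _ _))

/-- Two combinations are comonotone on the support of their joint law. -/
lemma comonotone (hν : IsGGArray ν) {α β : ℕ → ℝ} (hα : IsWeight α) (hβ : IsWeight β)
    {z z' : ℝ × ℝ} (hz : z ∈ (pairLaw ν α β).support) (hz' : z' ∈ (pairLaw ν α β).support) :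
    0 ≤ (z.1 - z'.1) * (z.2 - z'.2) := by
  have main : ∀ z z' : ℝ × ℝ, z ∈ (pairLaw ν α β).support → z' ∈ (pairLaw ν α β).support →
      z.1 < z'.1 → z'.2 < z.2 → False := by
    intro z z' hz hz' h1 h2
    obtain ⟨q, hq1, hq2⟩ := exists_between h1
    obtain ⟨r, hr1, hr2⟩ := exists_between h2
    rw [Measure.mem_support_iff_forall] at hz hz'
    rcases boxes_null hν hα hβ q r with h | h
    · exact (hz _ ((isOpen_Iio.prod isOpen_Ioi).mem_nhds ⟨hq1, hr2⟩)).ne' h
    · exact (hz' _ ((isOpen_Ioi.prod isOpen_Iio).mem_nhds ⟨hq2, hr1⟩)).ne' h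
  by_contra hneg
  rcases mul_neg_iff.1 (not_le.1 hneg) with ⟨h1, h2⟩ | ⟨h1, h2⟩
  · exact main z' z hz' hz (by linarith) (by linarith)
  · exact main z z' hz hz' (by linarith) (by linarith)

/-- Every kernel is a monotone Lipschitz function of the master overlap. -/
lemma sync (hν : IsGGArray ν) (g : ℕ) :
    ∃ φ : ℝ → ℝ, LipschitzWith ((2 : ℝ≥0) ^ (g + 1)) φ ∧ Monotone φ ∧
      ∀ a b, ∀ᵐ ω ∂ν, ω.2 g a b = φ (rbar a b ω) := by
  classical
  have := hν.prob
  set β : ℕ → ℝ := fun j => if j = g then 0 else kWeight j with hβdef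
  set γ : ℕ → ℝ := fun j => if j = g then kWeight j else 0 with hγdef
  have hβ : IsWeight β := ⟨fun j => by simp only [β]; split_ifs <;> simp [kWeight],
    isWeight_kWeight.summable.of_nonneg_of_le (fun j => by simp only [β]; split_ifs <;> simp [kWeight])
      fun j => by simp only [β]; split_ifs <;> simp [kWeight]⟩
  have hγ : IsWeight γ := ⟨fun j => by simp only [γ]; split_ifs <;> simp [kWeight],
    isWeight_kWeight.summable.of_nonneg_of_le (fun j => by simp only [γ]; split_ifs <;> simp [kWeight])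
      fun j => by simp only [γ]; split_ifs <;> simp [kWeight]⟩
  have hsum : (fun j => β j + γ j) = kWeight := funext fun j => by
    simp only [β, γ]; split_ifs <;> simp
  have hcombγ : ∀ k : ℕ → ℝ, comb γ k = kWeight g * clampUnit (k g) := fun k => by
    rw [comb, tsum_eq_single g fun j hj => by simp [γ, hj]]
    simp [γ]
  set μ := pairLaw ν β γ
  have : IsProbabilityMeasure μ :=
    Measure.isProbabilityMeasure_map (measurable_pair hβ hγ 0 1).aemeasurable
  set top : ℝ × ℝ := (topVal hν β, topVal hν γ)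
  have hle : ∀ z ∈ μ.support, z.1 ≤ top.1 ∧ z.2 ≤ top.2 := by
    refine fun z hz => Measure.support_subset_of_isClosed
      (t := {z : ℝ × ℝ | z.1 ≤ top.1} ∩ {z | z.2 ≤ top.2})
      ((isClosed_le continuous_fst continuous_const).inter
        (isClosed_le continuous_snd continuous_const)) ?_ hz
    show ∀ᵐ z ∂μ, z ∈ {z : ℝ × ℝ | z.1 ≤ top.1} ∩ {z | z.2 ≤ top.2}
    refine (ae_map_iff (measurable_pair hβ hγ 0 1).aemeasurable
      ((measurableSet_le measurable_fst measurable_const).inter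
        (measurableSet_le measurable_snd measurable_const))).2 ?_
    filter_upwards [ae_regular hν] with ω h
    exact ⟨(le_abs_self _).trans (h.ov_abs_le hβ 0 1), (le_abs_self _).trans (h.ov_abs_le hγ 0 1)⟩
  set S := insert top μ.support
  have hco : ∀ z ∈ S, ∀ z' ∈ S, 0 ≤ (z.1 - z'.1) * (z.2 - z'.2) := by
    intro z hz z' hz'
    rcases hz with rfl | hz <;> rcases hz' with rfl | hz'
    · simp
    · exact mul_nonneg (sub_nonneg.2 (hle z' hz').1) (sub_nonneg.2 (hle z' hz').2)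
    · exact mul_nonneg_of_nonpos_of_nonpos (sub_nonpos.2 (hle z hz).1) (sub_nonpos.2 (hle z hz).2)
    · exact comonotone hν hβ hγ hz hz'
  have hbd : ∀ x : ℝ, ∀ z ∈ S, z.2 - max (z.1 + z.2 - x) 0 ≤ top.2 := by
    intro x z hz
    have : z.2 ≤ top.2 := by
      rcases hz with rfl | hz
      · exact le_rfl
      · exact (hle z hz).2
    linarith [le_max_right (z.1 + z.2 - x) 0]
  set ψ : ℝ → ℝ := fun x => sSup ((fun z : ℝ × ℝ => z.2 - max (z.1 + z.2 - x) 0) '' S)
  have hSne : S.Nonempty := Set.insert_nonempty _ _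
  have hbdd : ∀ x, BddAbove ((fun z : ℝ × ℝ => z.2 - max (z.1 + z.2 - x) 0) '' S) := fun x =>
    ⟨top.2, Set.forall_mem_image.2 (hbd x)⟩
  have hψz : ∀ z ∈ S, ψ (z.1 + z.2) = z.2 := by
    intro z hz
    refine le_antisymm (csSup_le (hSne.image _) (Set.forall_mem_image.2 fun z' hz' => ?_))
      (le_csSup (hbdd _) ⟨z, hz, by simp⟩)
    have := hco z' hz' z hz
    rcases le_or_gt z'.2 z.2 with h | h
    · linarith [le_max_right (z'.1 + z'.2 - (z.1 + z.2)) 0]
    · have : 0 ≤ z'.1 - z.1 := nonneg_of_mul_nonneg_left this (by linarith)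
      linarith [le_max_left (z'.1 + z'.2 - (z.1 + z.2)) 0]
  have hψlip : ∀ x y, ψ x ≤ ψ y + |x - y| := by
    intro x y
    refine csSup_le (hSne.image _) (Set.forall_mem_image.2 fun z hz => ?_)
    have h1 : z.2 - max (z.1 + z.2 - y) 0 ≤ ψ y := le_csSup (hbdd y) ⟨z, hz, rfl⟩
    have h2 : max (z.1 + z.2 - y) 0 ≤ max (z.1 + z.2 - x) 0 + |x - y| :=
      max_le (by linarith [le_max_left (z.1 + z.2 - x) 0, le_abs_self (x - y)])
        (by linarith [le_max_right (z.1 + z.2 - x) 0, abs_nonneg (x - y)])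
    linarith
  have hw : 0 < kWeight g := by unfold kWeight; positivity
  refine ⟨fun x => ψ x / kWeight g, ?_, ?_, ?_⟩
  · refine LipschitzWith.of_le_add_mul _ fun x y => ?_
    have hc : (((2 : ℝ≥0) ^ (g + 1) : ℝ≥0) : ℝ) = 1 / kWeight g := by
      simp [kWeight]
    rw [hc, Real.dist_eq, div_mul_eq_mul_div, one_mul, ← add_div]
    gcongr
    exact hψlip x y
  · intro x y hxy
    simp only
    gcongr
    refine csSup_le (hSne.image _) (Set.forall_mem_image.2 fun z hz =>
      le_trans ?_ (le_csSup (hbdd y) ⟨z, hz, rfl⟩))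
    exact sub_le_sub_left (max_le_max (by linarith) le_rfl) _
  · intro a b
    have hmem : ∀ᵐ ω ∂ν, (ov β a b ω, ov γ a b ω) ∈ S := by
      rcases eq_or_ne a b with rfl | hab
      · filter_upwards [ae_regular hν] with ω h
        exact Or.inl (Prod.ext (h.ov_diag a) (h.ov_diag a))
      · have h01 : ∀ᵐ ω ∂ν, (ov β 0 1 ω, ov γ 0 1 ω) ∈ μ.support :=
          ae_of_ae_map (measurable_pair hβ hγ 0 1).aemeasurable Measure.support_mem_ae
        obtain ⟨π, hπ⟩ := exists_perm_extend ![a, b] (by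
          intro i j hij
          fin_cases i <;> fin_cases j <;> simp_all)
        have p0 : π 0 = a := hπ 0
        have p1 : π 1 = b := hπ 1
        filter_upwards [ae_permRep hν π h01] with ω hω
        simp only [ov_permRep, p0, p1] at hω
        exact Or.inr hω
    filter_upwards [hmem, ae_regular hν] with ω hω h
    have e : rbar a b ω = ov β a b ω + ov γ a b ω := by
      rw [h.rbar_eq, ← ov_add hβ hγ, hsum]
    rw [e, hψz _ hω]
    simp only [ov, hcombγ, show kvec a b ω g = ω.2 g a b from rfl, h.clamp]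
    field_simp

end Vale.Agent.P168.Tree
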