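import Vale.Agent.P168.Tree.Duplication

/-! Ultrametricity of every nonnegative combination of the kernels. -/

open MeasureTheory ProbabilityTheory Filter
open scoped BigOperators NNReal ENNReal

noncomputable section

namespace Vale.Agent.P168.Tree

variable {ν : Measure Arr} {α : ℕ → ℝ}

/-- The class of a replica in the three duplicated groups. -/
def grp (a : ℕ) : Fin 3 := ⟨a % 3, Nat.mod_lt _ (by norm_num)⟩

/-- `N` replicas in three groups, with overlaps across groups in boxes. -/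
def boxSet (α : ℕ → ℝ) (X : Fin 3 → Fin 3 → ℝ) (ε c : ℝ) (N : ℕ) : Set (RepData N) :=
  {z | ∀ a b : Fin N, a ≠ b → (grp a ≠ grp b → |ovD α a b z - X (grp a) (grp b)| < ε) ∧
    (grp a = grp b → ovD α a b z < c)}

lemma mem_boxSet {X : Fin 3 → Fin 3 → ℝ} {ε c : ℝ} {N : ℕ} {ω : Arr} :
    repData N ω ∈ boxSet α X ε c N ↔ ∀ a b : Fin N, a ≠ b →
      (grp a ≠ grp b → |ov α a b ω - X (grp a) (grp b)| < ε) ∧
      (grp a = grp b → ov α a b ω < c) := Iff.rfl

lemma measurableSet_boxSet (hα : IsWeight α) (X : Fin 3 → Fin 3 → ℝ) (ε c : ℝ) (N : ℕ) :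
    MeasurableSet (boxSet α X ε c N) := by
  simp only [boxSet, Set.ofPred_forall]
  refine MeasurableSet.iInter fun a => MeasurableSet.iInter fun b => MeasurableSet.iInter fun _ => ?_
  rw [Set.ofPred_and]
  simp only [Set.ofPred_forall]
  exact (MeasurableSet.iInter fun _ => measurableSet_lt
    ((measurable_ovD hα a b).sub_const _).abs measurable_const).inter
    (MeasurableSet.iInter fun _ => measurableSet_lt (measurable_ovD hα a b) measurable_const)

lemma boxSet_pos (hν : IsGGArray ν) (hα : IsWeight α) {X : Fin 3 → Fin 3 → ℝ} {ε c : ℝ}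
    (hXc : ∀ g h, g ≠ h → X g h + ε ≤ c) (hXs : ∀ g h, X g h = X h g)
    (hμ : 0 < (ovLaw ν α).real (Set.Iio c))
    (h3 : 0 < ν.real (repData 3 ⁻¹' boxSet α X ε c 3)) :
    ∀ N, 3 ≤ N → 0 < ν.real (repData N ⁻¹' boxSet α X ε c N) := by
  intro N hN
  have := hν.prob
  induction N, hN using Nat.le_induction with
  | base => exact h3
  | succ N hN ih =>
    have hp : N % 3 < N := by omega
    have hrow : ∀ᵐ ω ∂ν, repData N ω ∈ boxSet α X ε c N →
        ∀ l < N, l ≠ N % 3 → ov α (N % 3) l ω < c := by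
      refine Eventually.of_forall fun ω h l hl hlp => ?_
      have hne : (⟨N % 3, hp⟩ : Fin N) ≠ ⟨l, hl⟩ := fun e => hlp (congrArg Fin.val e).symm
      obtain ⟨h1, h2⟩ := mem_boxSet.1 h _ _ hne
      by_cases hg : grp (N % 3) = grp l
      · exact h2 hg
      · have := (abs_lt.1 (h1 hg)).2
        linarith [hXc _ _ hg]
    have hd := dup_pos hν hα hp hμ (measurableSet_boxSet hα X ε c N) hrow ih
    refine lt_of_lt_of_le hd ?_
    rw [measureReal_def, measureReal_def,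
      ENNReal.toReal_le_toReal (measure_ne_top _ _) (measure_ne_top _ _)]
    refine measure_mono_ae ?_
    filter_upwards [ae_regular hν] with ω hreg
    rintro ⟨hA, hA', hlt⟩
    have hclass : grp (N % 3) = grp N := Fin.ext (Nat.mod_mod N 3)
    have hold : ∀ a b : ℕ, a < N → b < N → a ≠ b →
        (grp a ≠ grp b → |ov α a b ω - X (grp a) (grp b)| < ε) ∧
        (grp a = grp b → ov α a b ω < c) := fun a b ha hb hab =>
      mem_boxSet.1 hA ⟨a, ha⟩ ⟨b, hb⟩ (fun e => hab (congrArg Fin.val e))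
    have hnew : ∀ a, a < N → (grp a ≠ grp N → |ov α a N ω - X (grp a) (grp N)| < ε) ∧
        (grp a = grp N → ov α a N ω < c) := by
      intro a ha
      by_cases hap : a = N % 3
      · subst hap
        exact ⟨fun h => absurd hclass h, fun _ => hlt⟩
      · have h := mem_boxSet.1 hA' ⟨a, ha⟩ ⟨N % 3, hp⟩ (fun e => hap (congrArg Fin.val e))
        simp only [ov_permRep, Equiv.swap_apply_left,
          Equiv.swap_apply_of_ne_of_ne hap (by omega : a ≠ N)] at h
        rw [← hclass]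
        exact h
    refine mem_boxSet.2 fun a b hab => ?_
    rcases Nat.lt_succ_iff_lt_or_eq.1 a.isLt with ha | ha <;>
      rcases Nat.lt_succ_iff_lt_or_eq.1 b.isLt with hb | hb
    · exact hold a b ha hb (fun e => hab (Fin.ext e))
    · rw [hb]
      exact hnew a ha
    · rw [ha, hreg.ov_symm, hXs, eq_comm (a := grp N), ne_comm (a := grp N)]
      exact hnew b hb
    · exact absurd (Fin.ext (ha.trans hb.symm)) hab

/-- The barycentre estimate: three large groups in one box configuration. -/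
lemma box_quadratic_nonneg (hν : IsGGArray ν) (hα : IsWeight α) {X : Fin 3 → Fin 3 → ℝ} {ε c : ℝ}
    {m : ℕ} (hm : 0 < m) (hpos : 0 < ν.real (repData (m * 3) ⁻¹' boxSet α X ε c (m * 3)))
    (y : Fin 3 → ℝ) :
    0 ≤ (∑ g, ∑ h, if g = h then y g ^ 2 * c else y g * y h * X g h + |y g * y h| * ε) +
      (∑ g, y g ^ 2) * (topVal hν α - c) / m := by
  have := hν.prob
  set N := m * 3 with hN
  set w : Fin N → ℝ := fun a => y (grp a) / m with hw
  have hψ : ∀ᵐ ω ∂ν, Regular hν ω ∧ 0 ≤ ∑ a : Fin N, ∑ b : Fin N, w a * w b * ov α a b ω := by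
    have hp : ∀ᵐ ω ∂ν, ∀ g, 0 ≤ ∑ a : Fin N, ∑ b : Fin N, w a * w b * ω.2 g a b :=
      ae_all_iff.2 fun g => hν.psd g N w
    filter_upwards [ae_regular hν, hp] with ω hreg hp
    refine ⟨hreg, ?_⟩
    have hs : ∀ a b : Fin N, Summable fun g => w a * w b * (α g * clampUnit (ω.2 g a b)) :=
      fun a b => (hα.summable_term _).mul_left _
    calc (0 : ℝ) ≤ ∑' g, α g * ∑ a : Fin N, ∑ b : Fin N, w a * w b * ω.2 g a b :=
          tsum_nonneg fun g => mul_nonneg (hα.nonneg g) (hp g)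
      _ = ∑' g, ∑ a : Fin N, ∑ b : Fin N, w a * w b * (α g * clampUnit (ω.2 g a b)) := by
          refine tsum_congr fun g => ?_
          simp only [Finset.mul_sum, hreg.clamp]
          refine Finset.sum_congr rfl fun a _ => Finset.sum_congr rfl fun b _ => ?_
          ring
      _ = ∑ a : Fin N, ∑ b : Fin N, w a * w b * ov α a b ω := by
          rw [Summable.tsum_finsetSum (fun a _ => summable_sum fun b _ => hs a b)]
          refine Finset.sum_congr rfl fun a _ => ?_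
          rw [Summable.tsum_finsetSum (fun b _ => hs a b)]
          refine Finset.sum_congr rfl fun b _ => ?_
          rw [tsum_mul_left]
          rfl
  obtain ⟨ω, hωbox, hreg, hquad⟩ : ∃ ω, repData N ω ∈ boxSet α X ε c N ∧
      Regular hν ω ∧ 0 ≤ ∑ a : Fin N, ∑ b : Fin N, w a * w b * ov α a b ω := by
    by_contra hne
    push Not at hne
    refine hpos.ne' ((measureReal_eq_zero_iff).2 ?_)
    have : ∀ᵐ ω ∂ν, ω ∉ repData N ⁻¹' boxSet α X ε c N := by
      filter_upwards [hψ] with ω hω hmem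
      exact absurd hω.2 (not_le.2 (hne ω hmem hω.1))
    exact measure_eq_zero_iff_ae_notMem.2 this
  set F : Fin 3 → Fin 3 → ℝ := fun g h =>
    if g = h then y g ^ 2 * c else y g * y h * X g h + |y g * y h| * ε with hF
  have hmR : (0 : ℝ) < m := by exact_mod_cast hm
  have hterm : ∀ a b : Fin N, w a * w b * ov α a b ω ≤
      F (grp a) (grp b) / (m : ℝ) ^ 2 +
        if a = b then y (grp a) ^ 2 * (topVal hν α - c) / (m : ℝ) ^ 2 else 0 := by
    intro a b
    have e : w a * w b * ov α a b ω = y (grp a) * y (grp b) * ov α a b ω / (m : ℝ) ^ 2 := by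
      simp only [hw]
      ring
    rw [e]
    by_cases hab : a = b
    · subst hab
      rw [if_pos rfl, hreg.ov_diag, ← add_div]
      simp only [hF, if_pos]
      exact le_of_eq (by ring)
    · rw [if_neg hab, add_zero]
      gcongr
      obtain ⟨h1, h2⟩ := mem_boxSet.1 hωbox a b hab
      by_cases hg : grp a = grp b
      · simp only [hF, if_pos hg, ← hg]
        rw [pow_two]
        exact mul_le_mul_of_nonneg_left (h2 hg).le (mul_self_nonneg _)
      · simp only [hF, if_neg hg]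
        have := le_abs_self (y (grp a) * y (grp b) * (ov α a b ω - X (grp a) (grp b)))
        rw [abs_mul] at this
        have := mul_le_mul_of_nonneg_left (h1 hg).le (abs_nonneg (y (grp a) * y (grp b)))
        nlinarith
  have hgrp : ∀ (i : Fin m) (g : Fin 3), grp ((finProdFinEquiv (i, g) : Fin (m * 3)) : ℕ) = g := by
    intro i g
    refine Fin.ext ?_
    simp only [grp, finProdFinEquiv_apply_val]
    omega
  have hsum : ∀ f : Fin 3 → ℝ, ∑ a : Fin N, f (grp a) = m * ∑ g, f g := by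
    intro f
    rw [← finProdFinEquiv.sum_comp, Fintype.sum_prod_type]
    simp only [hgrp, Finset.sum_const, Finset.card_univ, Fintype.card_fin, nsmul_eq_mul]
  have hle := Finset.sum_le_sum (s := Finset.univ) fun a _ =>
    Finset.sum_le_sum (s := Finset.univ) fun b _ => hterm a b
  simp only [Finset.sum_add_distrib, Finset.sum_ite_eq, Finset.mem_univ, if_true] at hle
  rw [Finset.sum_congr rfl (fun (a : Fin N) _ => hsum fun h => F (grp a) h / (m : ℝ) ^ 2),
    hsum (fun g => (m : ℝ) * ∑ h, F g h / (m : ℝ) ^ 2),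
    hsum (fun g => y g ^ 2 * (topVal hν α - c) / (m : ℝ) ^ 2)] at hle
  refine le_of_le_of_eq (hquad.trans hle) ?_
  simp only [← Finset.sum_div, ← Finset.mul_sum, ← Finset.sum_mul, hF]
  field_simp
  simp only [mul_comm c, mul_comm ε]

lemma mem_boxSet_three {X : Fin 3 → Fin 3 → ℝ} {ε c : ℝ} (hXs : ∀ g h, X g h = X h g) {ω : Arr}
    (hsymm : ∀ a b, ov α a b ω = ov α b a ω) (h01 : |ov α 0 1 ω - X 0 1| < ε)
    (h02 : |ov α 0 2 ω - X 0 2| < ε) (h12 : |ov α 1 2 ω - X 1 2| < ε) :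
    repData 3 ω ∈ boxSet α X ε c 3 := by
  have h10 : |ov α 1 0 ω - X 1 0| < ε := by rwa [hsymm, hXs]
  have h20 : |ov α 2 0 ω - X 2 0| < ε := by rwa [hsymm, hXs]
  have h21 : |ov α 2 1 ω - X 2 1| < ε := by rwa [hsymm, hXs]
  have hg : ∀ a : Fin 3, grp (a : ℕ) = a := fun a => Fin.ext (Nat.mod_eq_of_lt a.isLt)
  refine mem_boxSet.2 fun a b hab => ?_
  rw [hg a, hg b]
  refine ⟨fun _ => ?_, fun h => absurd h hab⟩
  fin_cases a <;> fin_cases b <;> first | exact absurd rfl hab | assumption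

lemma no_barycentre {s δ ε m D c w t : ℝ} (hs : 0 < s) (hδ : 0 < δ) (hm : 0 < m)
    (hεsq : 600 * s * ε ≤ δ ^ 2) (hms : s / m ≤ δ ^ 2 / (600 * s)) (hε : 0 ≤ ε)
    (hD1 : 5 / 6 * δ ≤ D) (hD2 : D ≤ 3 * s) (hc3 : c ≤ w + 3 * ε) (hcs : c ≤ s + 4 * ε)
    (hsc : s - c ≤ 3 * s) (ht : t = -(D / s))
    (key : 0 ≤ t ^ 2 * c + 2 * (t * D) + 4 * (|t| * ε) + 2 * ε + 2 * (c - w) +
      (t ^ 2 + 1 + 1) * (s - c) / m) : False := by
  have hDnn : 0 ≤ D := by linarith
  set q := D / s with hq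
  have hq0 : 0 ≤ q := div_nonneg hDnn hs.le
  have hq3 : q ≤ 3 := by rw [hq, div_le_iff₀ hs]; linarith
  have hqs : q * s = D := by rw [hq]; field_simp
  set P := δ ^ 2 / s with hP
  have hP0 : 0 < P := by positivity
  have hεP : ε ≤ P / 600 := by rw [hP, le_div_iff₀ (by norm_num), le_div_iff₀ hs]; linarith
  have hqD : 25 / 36 * P ≤ q * D := by
    have h1 : 5 / 6 * δ * (5 / 6 * δ) ≤ D * D := mul_le_mul hD1 hD1 (by linarith) hDnn
    calc 25 / 36 * P = 5 / 6 * δ * (5 / 6 * δ) / s := by rw [hP]; ring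
      _ ≤ D * D / s := div_le_div_of_nonneg_right h1 hs.le
      _ = q * D := by rw [hq]; ring
  have hsm : (s - c) / m ≤ P / 200 := by
    have h1 : (s - c) / m ≤ 3 * s / m := div_le_div_of_nonneg_right hsc hm.le
    have h2 : 3 * s / m = 3 * (s / m) := by ring
    have h3 : δ ^ 2 / (600 * s) = P / 600 := by rw [hP]; ring
    linarith
  have hq9 : q ^ 2 ≤ 9 := by
    have := pow_le_pow_left₀ hq0 hq3 2
    linarith
  have e1 : t ^ 2 * c ≤ q * D + 36 * ε := by
    have h1 : t ^ 2 = q ^ 2 := by rw [ht]; ring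
    rw [h1]
    calc q ^ 2 * c ≤ q ^ 2 * (s + 4 * ε) := mul_le_mul_of_nonneg_left hcs (sq_nonneg q)
      _ = q * (q * s) + q ^ 2 * (4 * ε) := by ring
      _ ≤ q * D + 9 * (4 * ε) := by rw [hqs]; gcongr
      _ = _ := by ring
  have e2 : t * D = -(q * D) := by rw [ht]; ring
  have e3 : |t| * ε ≤ 3 * ε := by
    rw [ht, abs_neg, abs_of_nonneg hq0]
    exact mul_le_mul_of_nonneg_right hq3 hε
  have e4 : (t ^ 2 + 1 + 1) * (s - c) / m ≤ 11 * (P / 200) := by
    have h1 : t ^ 2 = q ^ 2 := by rw [ht]; ring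
    rw [h1, mul_div_assoc]
    refine le_trans (mul_le_mul_of_nonneg_left hsm (by positivity)) ?_
    exact mul_le_mul_of_nonneg_right (by linarith) (by linarith)
  linarith

lemma ultra_bad_null (hν : IsGGArray ν) (hα : IsWeight α) {δ : ℝ} (hδ : 0 < δ) :
    ν {ω | ov α 0 1 ω + δ < ov α 0 2 ω ∧ ov α 0 2 ω ≤ ov α 1 2 ω} = 0 := by
  have := hν.prob
  set s := topVal hν α with hs
  set G := {ω | ov α 0 1 ω + δ < ov α 0 2 ω ∧ ov α 0 2 ω ≤ ov α 1 2 ω}
  by_contra hne
  obtain ⟨ω₁, hω₁, hreg₁⟩ : ∃ ω, ω ∈ G ∧ Regular hν ω := by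
    by_contra h
    push Not at h
    refine hne (measure_eq_zero_iff_ae_notMem.2 ?_)
    filter_upwards [ae_regular hν] with ω hω hG
    exact h ω hG hω
  have hδs : δ < 2 * s := by
    have h1 := abs_le.1 (hreg₁.ov_abs_le hα 0 1)
    have h2 := abs_le.1 (hreg₁.ov_abs_le hα 0 2)
    linarith [hω₁.1, h1.1, h2.2]
  have hs0 : 0 < s := by linarith
  set ε := min (δ / 12) (δ ^ 2 / (600 * s)) with hεdef
  have hε : 0 < ε := lt_min (by linarith) (by positivity)
  have hεs : ε ≤ s / 3 := le_trans (min_le_left _ _) (by linarith)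
  have hεδ : ε ≤ δ / 12 := min_le_left _ _
  have hεsq : 600 * s * ε ≤ δ ^ 2 := by
    have := min_le_right (δ / 12) (δ ^ 2 / (600 * s))
    rw [← hεdef, le_div_iff₀ (by positivity)] at this
    linarith
  have hbox : ∃ q : ℚ × ℚ × ℚ, ν {ω | |ov α 0 1 ω - q.1| < ε ∧ |ov α 0 2 ω - q.2.1| < ε ∧
      |ov α 1 2 ω - q.2.2| < ε ∧ ω ∈ G} ≠ 0 := by
    by_contra h
    push Not at h
    refine hne (measure_mono_null (fun ω hω => ?_) (measure_iUnion_null h))
    have hq : ∀ x : ℝ, ∃ q : ℚ, |x - q| < ε := fun x => by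
      obtain ⟨q, h1, h2⟩ := exists_rat_btwn (by linarith : x - ε < x + ε)
      exact ⟨q, abs_lt.2 ⟨by linarith, by linarith⟩⟩
    obtain ⟨q1, h1⟩ := hq (ov α 0 1 ω)
    obtain ⟨q2, h2⟩ := hq (ov α 0 2 ω)
    obtain ⟨q3, h3⟩ := hq (ov α 1 2 ω)
    exact Set.mem_iUnion.2 ⟨(q1, q2, q3), h1, h2, h3, hω⟩
  obtain ⟨⟨u, v, w⟩, hq⟩ := hbox
  simp only at hq
  set E := {ω : Arr | |ov α 0 1 ω - u| < ε ∧ |ov α 0 2 ω - v| < ε ∧ |ov α 1 2 ω - w| < ε ∧ ω ∈ G}
  obtain ⟨ω₂, ⟨hu, hv, hw, hG⟩, hreg₂⟩ : ∃ ω, ω ∈ E ∧ Regular hν ω := by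
    by_contra h
    push Not at h
    refine hq (measure_eq_zero_iff_ae_notMem.2 ?_)
    filter_upwards [ae_regular hν] with ω hω hE
    exact h ω hE hω
  obtain ⟨hu1, hu2⟩ := abs_lt.1 hu
  obtain ⟨hv1, hv2⟩ := abs_lt.1 hv
  obtain ⟨hw1, hw2⟩ := abs_lt.1 hw
  obtain ⟨hb1, hb2⟩ := abs_le.1 (hreg₂.ov_abs_le hα 0 1)
  obtain ⟨hb3, hb4⟩ := abs_le.1 (hreg₂.ov_abs_le hα 0 2)
  obtain ⟨hb5, hb6⟩ := abs_le.1 (hreg₂.ov_abs_le hα 1 2)
  obtain ⟨hG1, hG2⟩ := hG
  set X : Fin 3 → Fin 3 → ℝ := fun g h =>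
    if (g = 0 ∧ h = 1) ∨ (g = 1 ∧ h = 0) then (u : ℝ)
    else if (g = 0 ∧ h = 2) ∨ (g = 2 ∧ h = 0) then (v : ℝ) else (w : ℝ)
  set c : ℝ := max (u : ℝ) (max (v : ℝ) (w : ℝ)) + ε with hcdef
  have hcu : (u : ℝ) + ε ≤ c := add_le_add (le_max_left _ _) le_rfl
  have hcv : (v : ℝ) + ε ≤ c := add_le_add ((le_max_left _ _).trans (le_max_right _ _)) le_rfl
  have hcw : (w : ℝ) + ε ≤ c := add_le_add ((le_max_right _ _).trans (le_max_right _ _)) le_rfl
  have hc3 : c ≤ (w : ℝ) + 3 * ε := by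
    have : max (u : ℝ) (max (v : ℝ) (w : ℝ)) ≤ (w : ℝ) + 2 * ε :=
      max_le (by linarith) (max_le (by linarith) (by linarith))
    linarith
  have hXc : ∀ g h, g ≠ h → X g h + ε ≤ c := fun g h _ => by
    simp only [X]
    split_ifs <;> assumption
  have hXs : ∀ g h, X g h = X h g := fun g h => by
    fin_cases g <;> fin_cases h <;> simp [X]
  have h3 : 0 < ν.real (repData 3 ⁻¹' boxSet α X ε c 3) := by
    refine ENNReal.toReal_pos (fun h0 => hq ?_) (measure_ne_top _ _)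
    refine measure_mono_null_ae ?_ h0
    filter_upwards [ae_regular hν] with ω hreg
    rintro ⟨h1, h2, h3, -⟩
    exact mem_boxSet_three hXs hreg.ov_symm (by simpa [X] using h1) (by simpa [X] using h2)
      (by simpa [X] using h3)
  have hμ : 0 < (ovLaw ν α).real (Set.Iio c) := by
    rw [ovLaw, map_measureReal_apply (measurable_ov hα 0 1) measurableSet_Iio]
    refine ENNReal.toReal_pos (fun h0 => hq ?_) (measure_ne_top _ _)
    refine measure_mono_null (fun ω hω => ?_) h0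
    simp only [Set.mem_preimage, Set.mem_Iio]
    have := (abs_lt.1 hω.1).2
    linarith
  obtain ⟨m, hm⟩ := exists_nat_gt (max 1 (600 * s ^ 2 / δ ^ 2))
  have hm1 : (1 : ℝ) < m := lt_of_le_of_lt (le_max_left _ _) hm
  have hmpos : 0 < m := by exact_mod_cast lt_trans one_pos hm1
  have hmR : (0 : ℝ) < m := lt_trans one_pos hm1
  have hms : s / m ≤ δ ^ 2 / (600 * s) := by
    have h := lt_of_le_of_lt (le_max_right _ _) hm
    rw [div_lt_iff₀ (by positivity)] at h
    rw [div_le_div_iff₀ (by positivity) (by positivity)]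
    nlinarith
  set D : ℝ := (v : ℝ) - u with hD
  have hD1 : 5 / 6 * δ ≤ D := by linarith
  set t : ℝ := -(D / s) with ht
  have key := box_quadratic_nonneg hν hα hmpos
    (boxSet_pos hν hα hXc hXs hμ h3 (m * 3) (by omega)) ![t, -1, 1]
  simp only [Fin.sum_univ_three] at key
  simp [X] at key
  refine no_barycentre hs0 hδ hmR hεsq hms hε.le hD1 (by linarith) hc3 (by linarith) (by linarith)
    ht ?_
  rw [hD]
  linarith

lemma ultra_bad_null' (hν : IsGGArray ν) (hα : IsWeight α) :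
    ∀ᵐ ω ∂ν, min (ov α 0 2 ω) (ov α 1 2 ω) ≤ ov α 0 1 ω := by
  have h1 : ∀ᵐ ω ∂ν, ∀ k : ℕ, ¬(ov α 0 1 ω + 1 / ((k : ℝ) + 1) < ov α 0 2 ω ∧
      ov α 0 2 ω ≤ ov α 1 2 ω) :=
    ae_all_iff.2 fun k => measure_eq_zero_iff_ae_notMem.1 (ultra_bad_null hν hα (by positivity))
  have h2 := ae_permRep hν (Equiv.swap 0 1) h1
  filter_upwards [h1, h2, ae_regular hν] with ω h1 h2 hreg
  simp only [ov_permRep, Equiv.swap_apply_left, Equiv.swap_apply_right,
    Equiv.swap_apply_of_ne_of_ne (by norm_num : (2 : ℕ) ≠ 0) (by norm_num : (2 : ℕ) ≠ 1),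
    hreg.ov_symm 1 0] at h2
  by_contra hlt
  push Not at hlt
  obtain ⟨ha, hb⟩ := lt_min_iff.1 hlt
  obtain ⟨k, hk⟩ := exists_nat_one_div_lt (sub_pos.2 hlt)
  rcases le_total (ov α 0 2 ω) (ov α 1 2 ω) with h | h
  · exact h1 k ⟨by linarith [min_le_left (ov α 0 2 ω) (ov α 1 2 ω)], h⟩
  · exact h2 k ⟨by linarith [min_le_right (ov α 0 2 ω) (ov α 1 2 ω)], h⟩

/-- Ultrametricity of all triples. -/
lemma ov_ultra (hν : IsGGArray ν) (hα : IsWeight α) (a b c : ℕ) :
    ∀ᵐ ω ∂ν, min (ov α a b ω) (ov α b c ω) ≤ ov α a c ω := by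
  rcases eq_or_ne a b with rfl | hab
  · exact Eventually.of_forall fun ω => min_le_right _ _
  rcases eq_or_ne b c with rfl | hbc
  · exact Eventually.of_forall fun ω => min_le_left _ _
  rcases eq_or_ne a c with rfl | hac
  · filter_upwards [ae_regular hν] with ω hreg
    refine (min_le_left _ _).trans ?_
    rw [hreg.ov_diag]
    exact (le_abs_self _).trans (hreg.ov_abs_le hα a b)
  set σ₁ := Equiv.swap 0 a
  set σ₂ := Equiv.swap 1 (σ₁ c)
  set π := σ₁ * σ₂ * Equiv.swap 2 (σ₂ (σ₁ b))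
  have hσ₁ : ∀ x, σ₁ (σ₁ x) = x := fun x => Equiv.swap_apply_self _ _ x
  have hσ₂ : ∀ x, σ₂ (σ₂ x) = x := fun x => Equiv.swap_apply_self _ _ x
  have hc0 : σ₁ c ≠ 0 := fun h => hac (by rw [← hσ₁ c, h]; exact (Equiv.swap_apply_left 0 a).symm)
  have hσ20 : σ₂ 0 = 0 := Equiv.swap_apply_of_ne_of_ne (by norm_num) hc0.symm
  have hb0 : σ₂ (σ₁ b) ≠ 0 := fun h => hab (by
    have h' := congrArg σ₂ h
    rw [hσ₂, hσ20] at h'
    rw [← hσ₁ b, h']
    exact (Equiv.swap_apply_left 0 a).symm)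
  have hb1 : σ₂ (σ₁ b) ≠ 1 := fun h => hbc (by
    have h' := congrArg σ₂ h
    rw [hσ₂, show σ₂ 1 = σ₁ c from Equiv.swap_apply_left _ _] at h'
    exact σ₁.injective h')
  have p0 : π 0 = a := by
    simp only [π, Equiv.Perm.mul_apply,
      Equiv.swap_apply_of_ne_of_ne (by norm_num : (0 : ℕ) ≠ 2) hb0.symm, hσ20]
    exact Equiv.swap_apply_left 0 a
  have p1 : π 1 = c := by
    simp only [π, Equiv.Perm.mul_apply,
      Equiv.swap_apply_of_ne_of_ne (by norm_num : (1 : ℕ) ≠ 2) hb1.symm]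
    rw [show σ₂ 1 = σ₁ c from Equiv.swap_apply_left _ _, hσ₁]
  have p2 : π 2 = b := by
    simp only [π, Equiv.Perm.mul_apply, Equiv.swap_apply_left, hσ₁, hσ₂]
  filter_upwards [ae_permRep hν π (ultra_bad_null' hν hα), ae_regular hν] with ω h hreg
  simp only [ov_permRep, p0, p1, p2, hreg.ov_symm c b] at h
  exact h

end Vale.Agent.P168.Tree
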